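import Mathlib

namespace Vale.Agent.Lib.P012

open Finset

/-- every `m < N` is a sum of at most `F` distinct divisors of `N` -/
def Good (N F : ℕ) : Prop :=
  ∀ m < N, ∃ S : Finset ℕ, (∀ d ∈ S, d ∣ N) ∧ S.card ≤ F ∧ ∑ d ∈ S, d = m

theorem Good.mono {N F F' : ℕ} (h : Good N F) (hF : F ≤ F') : Good N F' := by
  intro m hm
  obtain ⟨S, h1, h2, h3⟩ := h m hm
  exact ⟨S, h1, h2.trans hF, h3⟩

theorem le_sum_of_mem {S : Finset ℕ} {d : ℕ} (hd : d ∈ S) : d ≤ ∑ x ∈ S, x :=
  Finset.single_le_sum (f := fun x => x) (fun _ _ => Nat.zero_le _) hd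

theorem good_two_pow (e : ℕ) : Good (2 ^ e) e := by
  induction e with
  | zero =>
    intro m hm
    have : m = 0 := by simpa using hm
    subst this
    exact ⟨∅, by simp, by simp, by simp⟩
  | succ e ih =>
    intro m hm
    by_cases h : m < 2 ^ e
    · obtain ⟨S, h1, h2, h3⟩ := ih m h
      exact ⟨S, fun d hd => dvd_trans (h1 d hd) (pow_dvd_pow 2 (Nat.le_succ e)), by omega, h3⟩
    · push Not at h
      have hm' : m - 2 ^ e < 2 ^ e := by rw [pow_succ] at hm; omega
      obtain ⟨S, h1, h2, h3⟩ := ih (m - 2 ^ e) hm'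
      have hnot : 2 ^ e ∉ S := by
        intro hmem
        have := le_sum_of_mem hmem
        omega
      refine ⟨insert (2 ^ e) S, ?_, ?_, ?_⟩
      · intro d hd
        rcases Finset.mem_insert.mp hd with rfl | hd
        · exact pow_dvd_pow 2 (Nat.le_succ e)
        · exact dvd_trans (h1 d hd) (pow_dvd_pow 2 (Nat.le_succ e))
      · rw [Finset.card_insert_of_notMem hnot]; omega
      · rw [Finset.sum_insert hnot, h3]; omega

theorem good_mul {V F M : ℕ} (hV : Good V F) (hM : 0 < M) (hMV : M ≤ V) : Good (M * V) (2 * F) := by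
  classical
  intro m hm
  have h1 : m / M < V := by
    rw [Nat.div_lt_iff_lt_mul hM]; rw [mul_comm] at hm; exact hm
  have h0 : m % M < V := lt_of_lt_of_le (Nat.mod_lt _ hM) hMV
  obtain ⟨S1, a1, a2, a3⟩ := hV (m / M) h1
  obtain ⟨S0, b1, b2, b3⟩ := hV (m % M) h0
  have hinj : Set.InjOn (fun d => M * d) (S1 : Set ℕ) := by
    intro x _ y _ hxy
    exact Nat.eq_of_mul_eq_mul_left hM hxy
  have hdisj : Disjoint (S1.image (fun d => M * d)) S0 := by
    rw [Finset.disjoint_left]
    intro x hx hx0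
    obtain ⟨d, hd, rfl⟩ := Finset.mem_image.mp hx
    have hdpos : 0 < d := by
      rcases Nat.eq_zero_or_pos d with h | h
      · subst h
        have := a1 0 hd
        rw [zero_dvd_iff] at this
        omega
      · exact h
    have h5 : M * d ≤ m % M := by rw [← b3]; exact le_sum_of_mem hx0
    have h6 : m % M < M := Nat.mod_lt _ hM
    have h7 : M ≤ M * d := Nat.le_mul_of_pos_right M hdpos
    omega
  refine ⟨S1.image (fun d => M * d) ∪ S0, ?_, ?_, ?_⟩
  · intro d hd
    rcases Finset.mem_union.mp hd with hd | hd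
    · obtain ⟨d', hd', rfl⟩ := Finset.mem_image.mp hd
      exact Nat.mul_dvd_mul_left M (a1 d' hd')
    · exact dvd_mul_of_dvd_right (b1 d hd) M
  · rw [Finset.card_union_of_disjoint hdisj, Finset.card_image_of_injOn hinj]; omega
  · rw [Finset.sum_union hdisj, Finset.sum_image hinj, ← Finset.mul_sum, a3, b3]
    exact Nat.div_add_mod m M

theorem tower {N F M k Q : ℕ} (hN : Good N F) (hMN : M ∣ N) (hNpos : 0 < N) (hkM : k * M ≤ N)
    (hQ : 1 < Q) (hcop : Nat.Coprime Q N)
    (hcov : ∀ x : ℕ, ∃ T : Finset ℕ, (∀ t ∈ T, t ∣ M) ∧ T.card ≤ k ∧ (∑ t ∈ T, t) ≡ x [MOD Q]) :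
    Good (Q * N) (F + k) := by
  classical
  intro m hm
  by_cases h : m < N
  · obtain ⟨S, h1, h2, h3⟩ := hN m h
    exact ⟨S, fun d hd => dvd_mul_of_dvd_right (h1 d hd) Q, by omega, h3⟩
  · push Not at h
    have hMpos : 0 < M := Nat.pos_of_dvd_of_pos hMN hNpos
    obtain ⟨T, t1, t2, t3⟩ := hcov m
    have hTle : ∑ t ∈ T, t ≤ m := by
      have h1 : ∑ t ∈ T, t ≤ ∑ _t ∈ T, M :=
        Finset.sum_le_sum fun t ht => Nat.le_of_dvd hMpos (t1 t ht)
      rw [Finset.sum_const, smul_eq_mul] at h1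
      have h2 : T.card * M ≤ k * M := Nat.mul_le_mul_right _ t2
      omega
    have hdvd : Q ∣ m - ∑ t ∈ T, t := (Nat.modEq_iff_dvd' hTle).mp t3
    obtain ⟨m', hm'⟩ := hdvd
    have hm'lt : m' < N := by
      have : Q * m' < Q * N := by omega
      exact lt_of_mul_lt_mul_left this (Nat.zero_le _)
    obtain ⟨S, s1, s2, s3⟩ := hN m' hm'lt
    have hinj : Set.InjOn (fun d => Q * d) (S : Set ℕ) := by
      intro x _ y _ hxy
      exact Nat.eq_of_mul_eq_mul_left (by omega) hxy
    have hdisj : Disjoint T (S.image (fun d => Q * d)) := by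
      rw [Finset.disjoint_right]
      intro x hx hxT
      obtain ⟨d, _, rfl⟩ := Finset.mem_image.mp hx
      have h1 : Q ∣ N := dvd_trans (dvd_trans (dvd_mul_right Q d) (t1 _ hxT)) hMN
      have h2 : Q = 1 := Nat.Coprime.eq_one_of_dvd hcop h1
      omega
    refine ⟨T ∪ S.image (fun d => Q * d), ?_, ?_, ?_⟩
    · intro d hd
      rcases Finset.mem_union.mp hd with hd | hd
      · exact dvd_mul_of_dvd_right (dvd_trans (t1 d hd) hMN) Q
      · obtain ⟨d', hd', rfl⟩ := Finset.mem_image.mp hd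
        exact Nat.mul_dvd_mul_left Q (s1 d' hd')
    · rw [Finset.card_union_of_disjoint hdisj, Finset.card_image_of_injOn hinj]; omega
    · rw [Finset.sum_union hdisj, Finset.sum_image hinj, ← Finset.mul_sum, s3, ← hm']
      omega


theorem erdos {N F a b : ℕ} (hN : Good N F) (ha : 0 < a) (hab : a < b) (hbN : b ≤ N) :
    ∃ S : Finset ℕ, (∀ n ∈ S, 2 ≤ n) ∧ S.card ≤ 2 * F ∧
      ∑ n ∈ S, (1 / (n : ℚ)) = (a : ℚ) / b := by
  classical
  have hNpos : 0 < N := by omega
  have hbpos : 0 < b := by omega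
  have hq : a * N / b < N := by
    rw [Nat.div_lt_iff_lt_mul hbpos]
    calc a * N < b * N := Nat.mul_lt_mul_of_pos_right hab hNpos
      _ = N * b := mul_comm _ _
  have hr : a * N % b < N := lt_of_lt_of_le (Nat.mod_lt _ hbpos) hbN
  obtain ⟨S1, a1, a2, a3⟩ := hN _ hq
  obtain ⟨S0, b1, b2, b3⟩ := hN _ hr
  have pos1 : ∀ d ∈ S1, 0 < d := fun d hd => Nat.pos_of_dvd_of_pos (a1 d hd) hNpos
  have pos0 : ∀ d ∈ S0, 0 < d := fun d hd => Nat.pos_of_dvd_of_pos (b1 d hd) hNpos
  have hinj1 : Set.InjOn (fun d => N / d) (S1 : Set ℕ) := by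
    intro x hx y hy hxy
    have e1 := Nat.div_mul_cancel (a1 x hx)
    have e2 := Nat.div_mul_cancel (a1 y hy)
    have hxy' : N / x = N / y := hxy
    have hpos : 0 < N / y := Nat.div_pos (Nat.le_of_dvd hNpos (a1 y hy)) (pos1 y hy)
    rw [hxy'] at e1
    exact Nat.eq_of_mul_eq_mul_left hpos (e1.trans e2.symm)
  have hinj0 : Set.InjOn (fun d => b * (N / d)) (S0 : Set ℕ) := by
    intro x hx y hy hxy
    have e1 := Nat.div_mul_cancel (b1 x hx)
    have e2 := Nat.div_mul_cancel (b1 y hy)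
    have hxy' : N / x = N / y := Nat.eq_of_mul_eq_mul_left hbpos hxy
    have hpos : 0 < N / y := Nat.div_pos (Nat.le_of_dvd hNpos (b1 y hy)) (pos0 y hy)
    rw [hxy'] at e1
    exact Nat.eq_of_mul_eq_mul_left hpos (e1.trans e2.symm)
  have hdisj : Disjoint (S1.image (fun d => N / d)) (S0.image (fun d => b * (N / d))) := by
    rw [Finset.disjoint_left]
    intro x hx hx0
    obtain ⟨d, hd, rfl⟩ := Finset.mem_image.mp hx
    obtain ⟨d', hd', h⟩ := Finset.mem_image.mp hx0
    have e1 := Nat.div_mul_cancel (a1 d hd)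
    have e2 := Nat.div_mul_cancel (b1 d' hd')
    have hpos : 0 < N / d' := Nat.div_pos (Nat.le_of_dvd hNpos (b1 d' hd')) (pos0 d' hd')
    have h5 : d' ≤ a * N % b := by rw [← b3]; exact le_sum_of_mem hd'
    have h6 : a * N % b < b := Nat.mod_lt _ hbpos
    have h7 : (N / d') * d' = (N / d') * (b * d) := by
      calc (N / d') * d' = N := e2
        _ = N / d * d := e1.symm
        _ = b * (N / d') * d := by rw [h]
        _ = (N / d') * (b * d) := by ring
    have h8 : d' = b * d := Nat.eq_of_mul_eq_mul_left hpos h7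
    have h9 : b ≤ b * d := Nat.le_mul_of_pos_right b (pos1 d hd)
    omega
  refine ⟨S1.image (fun d => N / d) ∪ S0.image (fun d => b * (N / d)), ?_, ?_, ?_⟩
  · intro n hn
    rcases Finset.mem_union.mp hn with hn | hn
    · obtain ⟨d, hd, rfl⟩ := Finset.mem_image.mp hn
      have e1 := Nat.div_mul_cancel (a1 d hd)
      have h5 : d ≤ a * N / b := by rw [← a3]; exact le_sum_of_mem hd
      by_contra hlt
      push Not at hlt
      have : N / d * d ≤ 1 * d := Nat.mul_le_mul_right d (by omega)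
      omega
    · obtain ⟨d, hd, rfl⟩ := Finset.mem_image.mp hn
      have hpos : 0 < N / d := Nat.div_pos (Nat.le_of_dvd hNpos (b1 d hd)) (pos0 d hd)
      have : b * 1 ≤ b * (N / d) := Nat.mul_le_mul_left b hpos
      omega
  · rw [Finset.card_union_of_disjoint hdisj, Finset.card_image_of_injOn hinj1,
      Finset.card_image_of_injOn hinj0]; omega
  · rw [Finset.sum_union hdisj, Finset.sum_image hinj1, Finset.sum_image hinj0]
    have hNq : (N : ℚ) ≠ 0 := by exact_mod_cast hNpos.ne'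
    have hbq : (b : ℚ) ≠ 0 := by exact_mod_cast hbpos.ne'
    have s1 : ∑ d ∈ S1, (1 / ((N / d : ℕ) : ℚ)) = ((a * N / b : ℕ) : ℚ) / N := by
      rw [← a3, Nat.cast_sum, Finset.sum_div]
      refine Finset.sum_congr rfl fun d hd => ?_
      have hdq : (d : ℚ) ≠ 0 := by exact_mod_cast (pos1 d hd).ne'
      rw [Nat.cast_div (a1 d hd) hdq]
      field_simp
    have s0 : ∑ d ∈ S0, (1 / ((b * (N / d) : ℕ) : ℚ)) = ((a * N % b : ℕ) : ℚ) / (b * N) := by
      rw [← b3, Nat.cast_sum, Finset.sum_div]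
      refine Finset.sum_congr rfl fun d hd => ?_
      have hdq : (d : ℚ) ≠ 0 := by exact_mod_cast (pos0 d hd).ne'
      rw [Nat.cast_mul, Nat.cast_div (b1 d hd) hdq]
      field_simp
    rw [s1, s0]
    have hdm : (b : ℚ) * ((a * N / b : ℕ) : ℚ) + ((a * N % b : ℕ) : ℚ) = (a : ℚ) * N := by
      exact_mod_cast Nat.div_add_mod (a * N) b
    field_simp
    linarith

end Vale.Agent.Lib.P012
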