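import Vale.Agent.Lib.P012.Basic

namespace Vale.Agent.Lib.P012

open Finset

/-- every `m < X` is a sum of at most `F` distinct divisors of `N` -/
def GoodBelow (X N F : ℕ) : Prop :=
  ∀ m < X, ∃ S : Finset ℕ, (∀ d ∈ S, d ∣ N) ∧ S.card ≤ F ∧ ∑ d ∈ S, d = m

theorem GoodBelow.mono {X N F F' : ℕ} (h : GoodBelow X N F) (hF : F ≤ F') :
    GoodBelow X N F' := by
  intro m hm
  obtain ⟨S, h1, h2, h3⟩ := h m hm
  exact ⟨S, h1, h2.trans hF, h3⟩

theorem GoodBelow.mono_X {X X' N F : ℕ} (h : GoodBelow X N F) (hX : X' ≤ X) :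
    GoodBelow X' N F := fun m hm => h m (lt_of_lt_of_le hm hX)

theorem good_below_two_pow (e P : ℕ) : GoodBelow (2 ^ e) (2 ^ e * P) e := by
  intro m hm
  obtain ⟨S, h1, h2, h3⟩ := good_two_pow e m hm
  exact ⟨S, fun d hd => dvd_mul_of_dvd_left (h1 d hd) P, h2, h3⟩

theorem tower_below {X N F B k Q : ℕ} (h : GoodBelow X N F) (hkB : k * B ≤ X)
    (hQ : 1 < Q) (hcop : Nat.Coprime Q N)
    (hcov : ∀ x : ℕ, ∃ T : Finset ℕ, (∀ t ∈ T, t ∣ N ∧ t ≤ B) ∧ T.card ≤ k ∧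
      (∑ t ∈ T, t) ≡ x [MOD Q]) :
    GoodBelow (Q * X) (Q * N) (F + k) := by
  classical
  intro m hm
  by_cases hmX : m < X
  · obtain ⟨S, h1, h2, h3⟩ := h m hmX
    exact ⟨S, fun d hd => dvd_mul_of_dvd_right (h1 d hd) Q, by omega, h3⟩
  · push Not at hmX
    obtain ⟨T, t1, t2, t3⟩ := hcov m
    have hTle : ∑ t ∈ T, t ≤ m := by
      have h1 : ∑ t ∈ T, t ≤ ∑ _t ∈ T, B := Finset.sum_le_sum fun t ht => (t1 t ht).2
      rw [Finset.sum_const, smul_eq_mul] at h1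
      have h2 : T.card * B ≤ k * B := Nat.mul_le_mul_right _ t2
      omega
    have hdvd : Q ∣ m - ∑ t ∈ T, t := (Nat.modEq_iff_dvd' hTle).mp t3
    obtain ⟨m', hm'⟩ := hdvd
    have hm'lt : m' < X := by
      have : Q * m' < Q * X := by omega
      exact lt_of_mul_lt_mul_left this (Nat.zero_le _)
    obtain ⟨S, s1, s2, s3⟩ := h m' hm'lt
    have hinj : Set.InjOn (fun d => Q * d) (S : Set ℕ) := by
      intro x _ y _ hxy
      exact Nat.eq_of_mul_eq_mul_left (by omega) hxy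
    have hdisj : Disjoint T (S.image (fun d => Q * d)) := by
      rw [Finset.disjoint_right]
      intro x hx hxT
      obtain ⟨d, _, rfl⟩ := Finset.mem_image.mp hx
      have h1 : Q ∣ N := dvd_trans (dvd_mul_right Q d) (t1 _ hxT).1
      have h2 : Q = 1 := Nat.Coprime.eq_one_of_dvd hcop h1
      omega
    refine ⟨T ∪ S.image (fun d => Q * d), ?_, ?_, ?_⟩
    · intro d hd
      rcases Finset.mem_union.mp hd with hd | hd
      · exact dvd_mul_of_dvd_right (t1 d hd).1 Q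
      · obtain ⟨d', hd', rfl⟩ := Finset.mem_image.mp hd
        exact Nat.mul_dvd_mul_left Q (s1 d' hd')
    · rw [Finset.card_union_of_disjoint hdisj, Finset.card_image_of_injOn hinj]; omega
    · rw [Finset.sum_union hdisj, Finset.sum_image hinj, ← Finset.mul_sum, s3, ← hm']
      omega

theorem tower_below_list {X N F B k : ℕ} (h : GoodBelow X N F) (hkB : k * B ≤ X) :
    ∀ Qs : List ℕ,
      (∀ Q ∈ Qs, 1 < Q ∧ Nat.Coprime Q N ∧ ∀ x : ℕ, ∃ T : Finset ℕ,
        (∀ t ∈ T, t ∣ N ∧ t ≤ B) ∧ T.card ≤ k ∧ (∑ t ∈ T, t) ≡ x [MOD Q]) →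
      Qs.Pairwise Nat.Coprime →
      GoodBelow (Qs.prod * X) (Qs.prod * N) (F + k * Qs.length) := by
  intro Qs
  induction Qs with
  | nil =>
    intro _ _
    simpa using h
  | cons Q Qs ih =>
    intro hq hp
    rw [List.pairwise_cons] at hp
    have ih' := ih (fun Q' hQ' => hq Q' (List.mem_cons_of_mem _ hQ')) hp.2
    obtain ⟨hQ1, hQN, hQc⟩ := hq Q List.mem_cons_self
    have hprodpos : 0 < Qs.prod := by
      apply List.prod_pos
      intro Q' hQ'
      have := (hq Q' (List.mem_cons_of_mem _ hQ')).1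
      omega
    have hcop : Nat.Coprime Q (Qs.prod * N) :=
      Nat.Coprime.mul_right (Nat.coprime_list_prod_right_iff.mpr hp.1) hQN
    have hle : X ≤ Qs.prod * X := Nat.le_mul_of_pos_left X hprodpos
    have hcov' : ∀ x : ℕ, ∃ T : Finset ℕ, (∀ t ∈ T, t ∣ Qs.prod * N ∧ t ≤ B) ∧ T.card ≤ k ∧
        (∑ t ∈ T, t) ≡ x [MOD Q] := by
      intro x
      obtain ⟨T, t1, t2, t3⟩ := hQc x
      exact ⟨T, fun t ht => ⟨dvd_mul_of_dvd_right (t1 t ht).1 _, (t1 t ht).2⟩, t2, t3⟩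
    have := tower_below ih' (hkB.trans hle) hQ1 hcop hcov'
    rw [List.prod_cons, List.length_cons, mul_assoc, mul_assoc]
    have e : F + k * (Qs.length + 1) = F + k * Qs.length + k := by ring
    rw [e]
    exact this

end Vale.Agent.Lib.P012
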