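import Vale.Agent.Lib.P012.FourierStruct

namespace Vale.Agent.Lib.P012

open Finset

section
variable {G : Finset ℕ} (hG : ∀ q ∈ G, q.Prime) {Q : ℕ} [NeZero Q] (hQ : Q = ∏ q ∈ G, q)
include hG hQ

theorem mu_bound' (A B : Finset ℕ) (s : ZMod Q) (w : ℕ) (hw : ∀ q ∈ G, ¬ q ∣ w) :
    ‖mu A B (s * (w : ZMod Q))‖ ^ 2
      ≤ ((∏ q ∈ Dset G s, q : ℕ) : ℝ) * coll A (Dset G s) * coll B (Dset G s) := by
  have h1 := mu_bound A B (s * (w : ZMod Q))
  have h2 := Q_le_ann_mul hG hQ (s * (w : ZMod Q))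
  rw [Dset_mul hG hQ s w hw] at h2
  rw [cK_eq_coll hG hQ, cK_eq_coll hG hQ, Dset_mul hG hQ s w hw] at h1
  have hK : (0 : ℝ) < (annS (s * (w : ZMod Q))).card := by exact_mod_cast annS_pos _
  have h3 : (Q : ℝ) ≤ (annS (s * (w : ZMod Q))).card * ((∏ q ∈ Dset G s, q : ℕ) : ℝ) := by
    exact_mod_cast h2
  have h4 : ((annS (s * (w : ZMod Q))).card : ℝ) * ‖mu A B (s * (w : ZMod Q))‖ ^ 2
      ≤ ((annS (s * (w : ZMod Q))).card : ℝ)
        * (((∏ q ∈ Dset G s, q : ℕ) : ℝ) * coll A (Dset G s) * coll B (Dset G s)) := by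
    refine h1.trans ?_
    have h5 : (0 : ℝ) ≤ (coll A (Dset G s) : ℝ) * coll B (Dset G s) := by positivity
    calc (Q : ℝ) * (coll A (Dset G s)) * (coll B (Dset G s))
        = (Q : ℝ) * ((coll A (Dset G s) : ℝ) * coll B (Dset G s)) := by ring
      _ ≤ ((annS (s * (w : ZMod Q))).card * ((∏ q ∈ Dset G s, q : ℕ) : ℝ))
            * ((coll A (Dset G s) : ℝ) * coll B (Dset G s)) :=
          mul_le_mul_of_nonneg_right h3 h5
      _ = _ := by ring
  exact le_of_mul_le_mul_left h4 hK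

end

theorem prod_four_le (f : Fin 4 → ℝ) (Z : ℝ) (hf : ∀ i, 0 ≤ f i) (h : ∀ i, f i ^ 2 ≤ Z) :
    ∏ i, f i ≤ Z ^ 2 := by
  have hZ : 0 ≤ Z := le_trans (sq_nonneg _) (h 0)
  have h1 : ∀ i, f i ≤ Real.sqrt Z := fun i => Real.le_sqrt_of_sq_le (h i)
  calc ∏ i, f i ≤ ∏ _i : Fin 4, Real.sqrt Z :=
        Finset.prod_le_prod (fun i _ => hf i) (fun i _ => h1 i)
    _ = Real.sqrt Z ^ 4 := by simp
    _ = (Real.sqrt Z ^ 2) ^ 2 := by ring
    _ = Z ^ 2 := by rw [Real.sq_sqrt hZ]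

theorem mu_zero (A B : Finset ℕ) {Q : ℕ} [NeZero Q] :
    mu A B (0 : ZMod Q) = (A.card : ℂ) * B.card := by
  unfold mu
  simp

theorem mu_eq_sum_prod (A B : Finset ℕ) {Q : ℕ} [NeZero Q] (s : ZMod Q) :
    mu A B s = ∑ p ∈ A ×ˢ B, chi Q (s * ((p.1 : ZMod Q) * (p.2 : ZMod Q))) := by
  unfold mu
  rw [Finset.sum_product]


theorem chi_map_sum4 {Q : ℕ} [NeZero Q] (f : Fin 4 → ZMod Q) :
    chi Q (∑ i, f i) = ∏ i, chi Q (f i) := by
  simp [Fin.sum_univ_four, Fin.prod_univ_four, AddChar.map_add_eq_mul]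

theorem cover (G : Finset ℕ) (hG : ∀ q ∈ G, q.Prime) (A B : Finset ℕ) (w : Fin 4 → ℕ)
    (hw : ∀ i, ∀ q ∈ G, ¬ q ∣ w i)
    (hsum : ∑ D ∈ G.powerset.erase ∅, (∏ q ∈ D, q) ^ 3 * (coll A D) ^ 2 * (coll B D) ^ 2
      < A.card ^ 4 * B.card ^ 4)
    (x : ℕ) : ∃ a b : Fin 4 → ℕ, (∀ i, a i ∈ A) ∧ (∀ i, b i ∈ B) ∧
      (∑ i, w i * a i * b i) ≡ x [MOD ∏ q ∈ G, q] := by
  classical
  obtain ⟨Q, hQ⟩ : ∃ Q, Q = ∏ q ∈ G, q := ⟨_, rfl⟩
  rw [← hQ]
  have : NeZero Q := ⟨by rw [hQ]; exact (Finset.prod_pos fun q hq => (hG q hq).pos).ne'⟩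
  by_contra hne
  push Not at hne
  have key : ∑ s : ZMod Q, chi Q (-(s * (x : ZMod Q))) * ∏ i, mu A B (s * (w i : ZMod Q)) = 0 := by
    have h1 : ∀ s : ZMod Q, chi Q (-(s * (x : ZMod Q))) * ∏ i, mu A B (s * (w i : ZMod Q))
        = ∑ f ∈ Fintype.piFinset (fun _ : Fin 4 => A ×ˢ B),
            chi Q (s * (∑ i, ((w i : ZMod Q) * ((f i).1 : ZMod Q) * ((f i).2 : ZMod Q))
              - (x : ZMod Q))) := by
      intro s
      simp_rw [mu_eq_sum_prod]
      rw [Finset.prod_univ_sum, Finset.mul_sum]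
      refine Finset.sum_congr rfl fun f _ => ?_
      rw [← chi_map_sum4, ← AddChar.map_add_eq_mul]
      congr 1
      simp only [Fin.sum_univ_four]
      ring
    simp_rw [h1]
    rw [Finset.sum_comm]
    refine Finset.sum_eq_zero fun f hf => ?_
    rw [chi_sum, if_neg]
    intro h3
    rw [sub_eq_zero] at h3
    have hf' := Fintype.mem_piFinset.mp hf
    apply hne (fun i => (f i).1) (fun i => (f i).2)
      (fun i => (Finset.mem_product.mp (hf' i)).1) (fun i => (Finset.mem_product.mp (hf' i)).2)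
    rw [← ZMod.natCast_eq_natCast_iff]
    push_cast
    exact h3
  -- isolate the zero frequency
  rw [← Finset.add_sum_erase _ _ (Finset.mem_univ (0 : ZMod Q))] at key
  have h0 : chi Q (-((0 : ZMod Q) * (x : ZMod Q))) * ∏ i, mu A B ((0 : ZMod Q) * (w i : ZMod Q))
      = ((A.card : ℂ) * B.card) ^ 4 := by
    simp [mu_zero]
  rw [h0] at key
  have hmain : ((A.card : ℝ) * B.card) ^ 4
      ≤ ∑ s ∈ (Finset.univ : Finset (ZMod Q)).erase 0, ∏ i, ‖mu A B (s * (w i : ZMod Q))‖ := by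
    have h1 : ((A.card : ℂ) * B.card) ^ 4
        = -∑ s ∈ (Finset.univ : Finset (ZMod Q)).erase 0,
            chi Q (-(s * (x : ZMod Q))) * ∏ i, mu A B (s * (w i : ZMod Q)) :=
      eq_neg_of_add_eq_zero_left key
    have h2 := congrArg norm h1
    rw [norm_neg, norm_pow, norm_mul, Complex.norm_natCast, Complex.norm_natCast] at h2
    rw [h2]
    refine (norm_sum_le _ _).trans (le_of_eq ?_)
    refine Finset.sum_congr rfl fun s _ => ?_
    rw [norm_mul, chi_norm, one_mul, norm_prod]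
  -- bound each term
  have hterm : ∀ s : ZMod Q, ∏ i, ‖mu A B (s * (w i : ZMod Q))‖
      ≤ (((∏ q ∈ Dset G s, q) * coll A (Dset G s) * coll B (Dset G s) : ℕ) : ℝ) ^ 2 := by
    intro s
    apply prod_four_le
    · intro i; exact norm_nonneg _
    · intro i
      have := mu_bound' hG hQ A B s (w i) (hw i)
      exact_mod_cast this
  have hsum2 : ∑ s ∈ (Finset.univ : Finset (ZMod Q)).erase 0,
        ((∏ q ∈ Dset G s, q) * coll A (Dset G s) * coll B (Dset G s)) ^ 2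
      ≤ ∑ D ∈ G.powerset.erase ∅, (∏ q ∈ D, q) ^ 3 * (coll A D) ^ 2 * (coll B D) ^ 2 := by
    have hmaps : ∀ s ∈ (Finset.univ : Finset (ZMod Q)).erase 0, Dset G s ∈ G.powerset.erase ∅ := by
      intro s hs
      rw [Finset.mem_erase]
      exact ⟨Dset_ne_empty hG hQ s (Finset.ne_of_mem_erase hs),
        Finset.mem_powerset.mpr (Finset.filter_subset _ _)⟩
    rw [← Finset.sum_fiberwise_of_maps_to hmaps]
    refine Finset.sum_le_sum fun D _ => ?_
    have h1 : ∀ s ∈ ((Finset.univ : Finset (ZMod Q)).erase 0).filter (fun s => Dset G s = D),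
        ((∏ q ∈ Dset G s, q) * coll A (Dset G s) * coll B (Dset G s)) ^ 2
          = ((∏ q ∈ D, q) * coll A D * coll B D) ^ 2 := by
      intro s hs
      rw [(Finset.mem_filter.mp hs).2]
    rw [Finset.sum_congr rfl h1, Finset.sum_const, smul_eq_mul]
    have h2 : (((Finset.univ : Finset (ZMod Q)).erase 0).filter (fun s => Dset G s = D)).card
        ≤ ∏ q ∈ D, q := by
      refine le_trans (Finset.card_le_card ?_) (Dset_card_le hG hQ D)
      intro s hs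
      rw [Finset.mem_filter] at hs ⊢
      exact ⟨Finset.mem_univ _, hs.2⟩
    calc _ ≤ (∏ q ∈ D, q) * ((∏ q ∈ D, q) * coll A D * coll B D) ^ 2 :=
          Nat.mul_le_mul_right _ h2
      _ = _ := by ring
  have hfinal : ((A.card : ℝ) * B.card) ^ 4
      ≤ ((∑ D ∈ G.powerset.erase ∅, (∏ q ∈ D, q) ^ 3 * (coll A D) ^ 2 * (coll B D) ^ 2 : ℕ) : ℝ) := by
    refine hmain.trans ?_
    refine le_trans (Finset.sum_le_sum fun s _ => hterm s) ?_
    have : (∑ s ∈ (Finset.univ : Finset (ZMod Q)).erase 0,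
        (((∏ q ∈ Dset G s, q) * coll A (Dset G s) * coll B (Dset G s) : ℕ) : ℝ) ^ 2)
        = ((∑ s ∈ (Finset.univ : Finset (ZMod Q)).erase 0,
        ((∏ q ∈ Dset G s, q) * coll A (Dset G s) * coll B (Dset G s)) ^ 2 : ℕ) : ℝ) := by
      push_cast; rfl
    rw [this]
    exact_mod_cast hsum2
  have hlt : ((∑ D ∈ G.powerset.erase ∅, (∏ q ∈ D, q) ^ 3 * (coll A D) ^ 2 * (coll B D) ^ 2 : ℕ) : ℝ)
      < ((A.card : ℝ) * B.card) ^ 4 := by
    have : ((A.card : ℝ) * B.card) ^ 4 = ((A.card ^ 4 * B.card ^ 4 : ℕ) : ℝ) := by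
      push_cast; ring
    rw [this]
    exact_mod_cast hsum
  exact absurd hfinal (not_le.mpr hlt)

end Vale.Agent.Lib.P012
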