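import Mathlib

namespace Vale.Agent.Lib.P012

open Finset

variable {Q : ℕ} [NeZero Q]

/-- the standard additive character of `ZMod Q` -/
noncomputable abbrev chi (Q : ℕ) [NeZero Q] : AddChar (ZMod Q) ℂ := ZMod.stdAddChar (N := Q)

theorem chi_sum (b : ZMod Q) :
    ∑ x : ZMod Q, chi Q (x * b) = if b = 0 then (Q : ℂ) else 0 := by
  rw [AddChar.sum_mulShift b (ZMod.isPrimitive_stdAddChar Q)]
  simp [ZMod.card]

theorem chi_conj (x : ZMod Q) : (starRingEnd ℂ) (chi Q x) = chi Q (-x) := by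
  have h : 0 < ringChar (ZMod Q) := by
    rw [ZMod.ringChar_zmod_n]; exact Nat.pos_of_ne_zero (NeZero.ne Q)
  rw [AddChar.starComp_apply h, AddChar.inv_apply]

theorem chi_norm (x : ZMod Q) : ‖chi Q x‖ = 1 := by
  have h : chi Q x * (starRingEnd ℂ) (chi Q x) = 1 := by
    rw [chi_conj, ← AddChar.map_add_eq_mul]; simp
  have h2 : ‖chi Q x‖ ^ 2 = 1 := by
    have := Complex.mul_conj' (chi Q x)
    rw [h] at this
    exact_mod_cast this.symm
  have h3 : 0 ≤ ‖chi Q x‖ := norm_nonneg _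
  nlinarith [h2, h3]

/-- the inner sum over `B` -/
noncomputable def gs (B : Finset ℕ) (z : ZMod Q) : ℂ := ∑ b ∈ B, chi Q (z * (b : ZMod Q))

/-- the bilinear sum -/
noncomputable def mu (A B : Finset ℕ) (s : ZMod Q) : ℂ :=
  ∑ a ∈ A, ∑ b ∈ B, chi Q (s * ((a : ZMod Q) * (b : ZMod Q)))

/-- the annihilator of `s` -/
noncomputable def annS (s : ZMod Q) : Finset (ZMod Q) := univ.filter (fun u => s * u = 0)

/-- collisions of `A` after multiplication by `s` -/
noncomputable def cK (A : Finset ℕ) (s : ZMod Q) : ℕ :=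
  ((A ×ˢ A).filter (fun p : ℕ × ℕ => s * (p.1 : ZMod Q) = s * (p.2 : ZMod Q))).card

theorem mu_eq (A B : Finset ℕ) (s : ZMod Q) :
    mu A B s = ∑ a ∈ A, gs B (s * (a : ZMod Q)) := by
  unfold mu gs
  refine Finset.sum_congr rfl fun a _ => Finset.sum_congr rfl fun b _ => ?_
  rw [mul_assoc]

theorem fiber_card (s a : ZMod Q) :
    (univ.filter (fun y : ZMod Q => s * y = s * a)).card = (annS s).card := by
  unfold annS
  refine Finset.card_nbij' (fun y => y - a) (fun u => u + a) ?_ ?_ ?_ ?_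
  · intro y hy
    simp only [coe_filter, mem_univ, true_and, Set.mem_ofPred_eq] at hy ⊢
    rw [mul_sub, hy, sub_self]
  · intro u hu
    simp only [coe_filter, mem_univ, true_and, Set.mem_ofPred_eq] at hu ⊢
    rw [mul_add, hu, zero_add]
  · intro y _; simp
  · intro u _; simp

theorem annS_pos (s : ZMod Q) : 0 < (annS s).card := by
  apply Finset.card_pos.mpr
  exact ⟨0, by simp [annS]⟩


/-- multiplicity of the class of `y` in `A` -/
noncomputable def mult (A : Finset ℕ) (s y : ZMod Q) : ℕ :=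
  (A.filter (fun a : ℕ => s * (a : ZMod Q) = s * y)).card

theorem ann_smul_mu (A B : Finset ℕ) (s : ZMod Q) :
    ((annS s).card : ℂ) * mu A B s = ∑ y : ZMod Q, (mult A s y : ℂ) * gs B (s * y) := by
  have h1 : ∀ y : ZMod Q, (mult A s y : ℂ) * gs B (s * y)
      = ∑ a ∈ A, if s * (a : ZMod Q) = s * y then gs B (s * (a : ZMod Q)) else 0 := by
    intro y
    unfold mult
    rw [Finset.card_filter, Nat.cast_sum, Finset.sum_mul]
    refine Finset.sum_congr rfl fun a _ => ?_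
    split_ifs with h
    · rw [h]; simp
    · simp
  simp_rw [h1]
  rw [Finset.sum_comm, mu_eq, Finset.mul_sum]
  refine Finset.sum_congr rfl fun a _ => ?_
  rw [← Finset.sum_filter, Finset.sum_const, nsmul_eq_mul]
  congr 2
  rw [← fiber_card s (a : ZMod Q)]
  congr 1
  ext y
  simp [eq_comm]

theorem sum_mult_sq (A : Finset ℕ) (s : ZMod Q) :
    ∑ y : ZMod Q, (mult A s y) ^ 2 = (annS s).card * cK A s := by
  have h1 : ∀ y : ZMod Q, (mult A s y) ^ 2
      = ∑ p ∈ A ×ˢ A, if (s * (p.1 : ZMod Q) = s * y ∧ s * (p.2 : ZMod Q) = s * y) then 1 else 0 := by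
    intro y
    unfold mult
    rw [sq, Finset.card_filter, Finset.sum_mul_sum, Finset.sum_product]
    refine Finset.sum_congr rfl fun a _ => Finset.sum_congr rfl fun b _ => ?_
    by_cases h1 : s * (a : ZMod Q) = s * y <;> by_cases h2 : s * (b : ZMod Q) = s * y <;> simp [h1, h2]
  simp_rw [h1]
  rw [Finset.sum_comm]
  unfold cK
  rw [Finset.card_filter, Finset.mul_sum]
  refine Finset.sum_congr rfl fun p _ => ?_
  by_cases h : s * (p.1 : ZMod Q) = s * (p.2 : ZMod Q)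
  · rw [if_pos h, mul_one, ← fiber_card s (p.1 : ZMod Q), Finset.card_filter]
    refine Finset.sum_congr rfl fun y _ => ?_
    by_cases h1 : s * y = s * (p.1 : ZMod Q)
    · rw [if_pos h1, if_pos ⟨h1.symm, by rw [← h, h1]⟩]
    · rw [if_neg h1, if_neg (fun hh => h1 hh.1.symm)]
  · rw [if_neg h, mul_zero]
    refine Finset.sum_eq_zero fun y _ => ?_
    rw [if_neg]
    rintro ⟨h1, h2⟩
    exact h (h1.trans h2.symm)

theorem sum_norm_gs (B : Finset ℕ) (s : ZMod Q) :
    ∑ y : ZMod Q, ‖gs B (s * y)‖ ^ 2 = (Q : ℝ) * cK B s := by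
  have h1 : ∀ y : ZMod Q, ((‖gs B (s * y)‖ ^ 2 : ℝ) : ℂ)
      = ∑ p ∈ B ×ˢ B, chi Q (y * (s * ((p.1 : ZMod Q) - (p.2 : ZMod Q)))) := by
    intro y
    rw [Complex.ofReal_pow, ← Complex.mul_conj']
    unfold gs
    rw [map_sum, Finset.sum_mul_sum, Finset.sum_product]
    refine Finset.sum_congr rfl fun a _ => Finset.sum_congr rfl fun b _ => ?_
    rw [chi_conj, ← AddChar.map_add_eq_mul]
    congr 1
    ring
  have h2 : ((∑ y : ZMod Q, ‖gs B (s * y)‖ ^ 2 : ℝ) : ℂ) = (((Q : ℝ) * cK B s : ℝ) : ℂ) := by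
    rw [Complex.ofReal_sum]
    simp_rw [h1]
    rw [Finset.sum_comm]
    simp_rw [chi_sum]
    unfold cK
    rw [Finset.card_filter]
    push_cast
    rw [Finset.mul_sum]
    refine Finset.sum_congr rfl fun p _ => ?_
    by_cases h : s * (p.1 : ZMod Q) = s * (p.2 : ZMod Q)
    · rw [if_pos h, if_pos (by rw [mul_sub, h, sub_self])]; simp
    · rw [if_neg h, if_neg (by rw [mul_sub, sub_eq_zero]; exact h)]; simp
  exact_mod_cast h2

theorem mu_bound (A B : Finset ℕ) (s : ZMod Q) :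
    ((annS s).card : ℝ) * ‖mu A B s‖ ^ 2 ≤ (Q : ℝ) * cK A s * cK B s := by
  have hK : (0 : ℝ) < (annS s).card := by exact_mod_cast annS_pos s
  have h1 : ((annS s).card : ℝ) * ‖mu A B s‖
      ≤ ∑ y : ZMod Q, (mult A s y : ℝ) * ‖gs B (s * y)‖ := by
    have := congrArg norm (ann_smul_mu A B s)
    rw [norm_mul, Complex.norm_natCast] at this
    rw [this]
    refine (norm_sum_le _ _).trans (le_of_eq ?_)
    refine Finset.sum_congr rfl fun y _ => ?_
    rw [norm_mul, Complex.norm_natCast]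
  have h2 : (∑ y : ZMod Q, (mult A s y : ℝ) * ‖gs B (s * y)‖) ^ 2
      ≤ (∑ y : ZMod Q, (mult A s y : ℝ) ^ 2) * ∑ y : ZMod Q, ‖gs B (s * y)‖ ^ 2 :=
    Finset.sum_mul_sq_le_sq_mul_sq _ _ _
  have h3 : (∑ y : ZMod Q, (mult A s y : ℝ) ^ 2) = ((annS s).card : ℝ) * cK A s := by
    exact_mod_cast sum_mult_sq A s
  rw [h3, sum_norm_gs] at h2
  have h4 : (((annS s).card : ℝ) * ‖mu A B s‖) ^ 2
      ≤ ((annS s).card : ℝ) * cK A s * ((Q : ℝ) * cK B s) := by
    refine le_trans ?_ h2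
    exact pow_le_pow_left₀ (by positivity) h1 2
  have h5 : ((annS s).card : ℝ) * (((annS s).card : ℝ) * ‖mu A B s‖ ^ 2)
      ≤ ((annS s).card : ℝ) * ((Q : ℝ) * cK A s * cK B s) := by
    calc ((annS s).card : ℝ) * (((annS s).card : ℝ) * ‖mu A B s‖ ^ 2)
        = (((annS s).card : ℝ) * ‖mu A B s‖) ^ 2 := by ring
      _ ≤ ((annS s).card : ℝ) * cK A s * ((Q : ℝ) * cK B s) := h4
      _ = ((annS s).card : ℝ) * ((Q : ℝ) * cK A s * cK B s) := by ring
  exact le_of_mul_le_mul_left h5 hK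

end Vale.Agent.Lib.P012
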