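import Vale.Agent.Lib.P012.FourierCore

namespace Vale.Agent.Lib.P012

open Finset

/-- number of pairs of `A` congruent modulo every `q ∈ D` -/
def coll (A D : Finset ℕ) : ℕ :=
  ((A ×ˢ A).filter (fun p : ℕ × ℕ => ∀ q ∈ D, p.1 ≡ p.2 [MOD q])).card

/-- primes of `G` not dividing `s` -/
def Dset (G : Finset ℕ) {Q : ℕ} (s : ZMod Q) : Finset ℕ := G.filter (fun q => ¬ q ∣ s.val)

theorem modEq_iff_dvd_natAbs (n x y : ℕ) : x ≡ y [MOD n] ↔ n ∣ ((y : ℤ) - x).natAbs := by
  rw [Nat.modEq_iff_dvd, Int.natCast_dvd]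

section
variable {G : Finset ℕ} (hG : ∀ q ∈ G, q.Prime) {Q : ℕ} [NeZero Q] (hQ : Q = ∏ q ∈ G, q)
include hG hQ

theorem dvd_Q_iff (z : ℕ) : Q ∣ z ↔ ∀ q ∈ G, q ∣ z := by
  constructor
  · intro h q hq
    exact dvd_trans (hQ ▸ Finset.dvd_prod_of_mem _ hq) h
  · intro h
    rw [hQ]
    exact Finset.prod_primes_dvd z (fun q hq => (hG q hq).prime) h

theorem mul_eq_mul_iff (s : ZMod Q) (x y : ℕ) :
    s * (x : ZMod Q) = s * (y : ZMod Q) ↔ ∀ q ∈ Dset G s, x ≡ y [MOD q] := by
  have hs : s = ((s.val : ℕ) : ZMod Q) := (ZMod.natCast_zmod_val s).symm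
  have h1 : s * (x : ZMod Q) = s * (y : ZMod Q) ↔ (s.val * x) ≡ (s.val * y) [MOD Q] := by
    rw [← ZMod.natCast_eq_natCast_iff]
    push_cast
    rw [← hs]
  rw [h1, modEq_iff_dvd_natAbs]
  have h2 : (((s.val * y : ℕ) : ℤ) - ((s.val * x : ℕ) : ℤ)).natAbs
      = s.val * ((y : ℤ) - x).natAbs := by
    push_cast
    rw [← mul_sub, Int.natAbs_mul, Int.natAbs_natCast]
  rw [h2, dvd_Q_iff hG hQ]
  constructor
  · intro h q hq
    rw [modEq_iff_dvd_natAbs]
    have hq' := Finset.mem_filter.mp hq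
    rcases (hG q hq'.1).dvd_mul.mp (h q hq'.1) with h3 | h3
    · exact absurd h3 hq'.2
    · exact h3
  · intro h q hq
    by_cases h3 : q ∣ s.val
    · exact dvd_mul_of_dvd_left h3 _
    · have := h q (Finset.mem_filter.mpr ⟨hq, h3⟩)
      rw [modEq_iff_dvd_natAbs] at this
      exact dvd_mul_of_dvd_right this _

theorem cK_eq_coll (A : Finset ℕ) (s : ZMod Q) : cK A s = coll A (Dset G s) := by
  unfold cK coll
  congr 1
  refine Finset.filter_congr fun p _ => ?_
  exact mul_eq_mul_iff hG hQ s p.1 p.2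

theorem Q_le_ann_mul (s : ZMod Q) : Q ≤ (annS s).card * ∏ q ∈ Dset G s, q := by
  set d := ∏ q ∈ Dset G s, q with hd
  have hdQ : d ∣ Q := by
    rw [hQ]
    exact Finset.prod_dvd_prod_of_subset _ _ _ (Finset.filter_subset _ _)
  have hQpos : 0 < Q := Nat.pos_of_ne_zero (NeZero.ne Q)
  have hdpos : 0 < d := Nat.pos_of_dvd_of_pos hdQ hQpos
  have hcard : Q / d ≤ (annS s).card := by
    have : (Finset.range (Q / d)).card ≤ (annS s).card := by
      apply Finset.card_le_card_of_injOn (fun v => ((d * v : ℕ) : ZMod Q))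
      · intro v hv
        simp only [Finset.coe_range, Set.mem_Iio] at hv
        simp only [annS, Finset.coe_filter, Finset.mem_univ, true_and, Set.mem_ofPred_eq]
        have hs : s = ((s.val : ℕ) : ZMod Q) := (ZMod.natCast_zmod_val s).symm
        rw [hs, ← Nat.cast_mul, ZMod.natCast_eq_zero_iff, dvd_Q_iff hG hQ]
        intro q hq
        by_cases h3 : q ∣ s.val
        · exact dvd_mul_of_dvd_left h3 _
        · have : q ∣ d := Finset.dvd_prod_of_mem _ (Finset.mem_filter.mpr ⟨hq, h3⟩)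
          exact dvd_mul_of_dvd_right (dvd_mul_of_dvd_left this _) _
      · intro v hv v' hv' h
        simp only [Finset.coe_range, Set.mem_Iio] at hv hv'
        have h1 : d * v < Q := by
          calc d * v < d * (Q / d) := Nat.mul_lt_mul_of_pos_left hv hdpos
            _ = Q := Nat.mul_div_cancel' hdQ
        have h2 : d * v' < Q := by
          calc d * v' < d * (Q / d) := Nat.mul_lt_mul_of_pos_left hv' hdpos
            _ = Q := Nat.mul_div_cancel' hdQ
        have h3 : d * v = d * v' := by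
          have := (ZMod.natCast_eq_natCast_iff _ _ _).mp h
          exact Nat.ModEq.eq_of_lt_of_lt this h1 h2
        exact Nat.eq_of_mul_eq_mul_left hdpos h3
    simpa using this
  calc Q = Q / d * d := (Nat.div_mul_cancel hdQ).symm
    _ ≤ (annS s).card * d := Nat.mul_le_mul_right _ hcard

theorem Dset_card_le (D : Finset ℕ) :
    ((Finset.univ : Finset (ZMod Q)).filter (fun s => Dset G s = D)).card ≤ ∏ q ∈ D, q := by
  by_cases hD : D ⊆ G
  swap
  · have : ((Finset.univ : Finset (ZMod Q)).filter (fun s => Dset G s = D)) = ∅ := by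
      apply Finset.filter_eq_empty_iff.mpr
      intro s _ h
      exact hD (h ▸ Finset.filter_subset _ _)
    rw [this]; simp
  set d := ∏ q ∈ D, q with hd
  have hdpos : 0 < d := Finset.prod_pos fun q hq => (hG q (hD hq)).pos
  have hQpos : 0 < Q := Nat.pos_of_ne_zero (NeZero.ne Q)
  have : ((Finset.univ : Finset (ZMod Q)).filter (fun s => Dset G s = D)).card
      ≤ (Finset.range d).card := by
    apply Finset.card_le_card_of_injOn (fun s : ZMod Q => s.val % d)
    · intro s _
      simp only [Finset.coe_range, Set.mem_Iio]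
      exact Nat.mod_lt _ hdpos
    · intro s hs s' hs' h
      simp only [Finset.coe_filter, Finset.mem_univ, true_and, Set.mem_ofPred_eq] at hs hs'
      have h' : s.val % d = s'.val % d := h
      have hmod : s.val ≡ s'.val [MOD d] := h'
      have h1 : Q ∣ ((s'.val : ℤ) - s.val).natAbs := by
        rw [dvd_Q_iff hG hQ]
        intro q hq
        by_cases h3 : q ∈ D
        · have : d ∣ ((s'.val : ℤ) - s.val).natAbs := (modEq_iff_dvd_natAbs _ _ _).mp hmod
          exact dvd_trans (Finset.dvd_prod_of_mem _ h3) this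
        · have h4 : q ∣ s.val := by
            by_contra h5
            exact h3 (hs ▸ Finset.mem_filter.mpr ⟨hq, h5⟩)
          have h6 : q ∣ s'.val := by
            by_contra h5
            exact h3 (hs' ▸ Finset.mem_filter.mpr ⟨hq, h5⟩)
          rw [← Int.natCast_dvd]
          exact dvd_sub (Int.natCast_dvd_natCast.mpr h6) (Int.natCast_dvd_natCast.mpr h4)
      have h2 : ((s'.val : ℤ) - s.val).natAbs < Q := by
        have a1 := ZMod.val_lt s
        have a2 := ZMod.val_lt s'
        omega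
      have h3 : ((s'.val : ℤ) - s.val).natAbs = 0 := Nat.eq_zero_of_dvd_of_lt h1 h2
      have h4 : s.val = s'.val := by omega
      exact ZMod.val_injective Q h4
  simpa using this

theorem Dset_ne_empty (s : ZMod Q) (hs : s ≠ 0) : Dset G s ≠ ∅ := by
  intro h
  apply hs
  have h1 : Q ∣ s.val := by
    rw [dvd_Q_iff hG hQ]
    intro q hq
    by_contra h5
    have : q ∈ Dset G s := Finset.mem_filter.mpr ⟨hq, h5⟩
    rw [h] at this
    simp at this
  have h2 : s.val = 0 := Nat.eq_zero_of_dvd_of_lt h1 (ZMod.val_lt s)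
  exact (ZMod.val_eq_zero s).mp h2

theorem Dset_mul (s : ZMod Q) (w : ℕ) (hw : ∀ q ∈ G, ¬ q ∣ w) :
    Dset G (s * (w : ZMod Q)) = Dset G s := by
  unfold Dset
  refine Finset.filter_congr fun q hq => ?_
  have hqQ : q ∣ Q := hQ ▸ Finset.dvd_prod_of_mem _ hq
  rw [ZMod.val_mul, ZMod.val_natCast, Nat.dvd_mod_iff hqQ, (hG q hq).dvd_mul, Nat.dvd_mod_iff hqQ]
  constructor
  · intro h h1; exact h (Or.inl h1)
  · intro h h1
    rcases h1 with h1 | h1
    · exact h h1
    · exact hw q hq h1

end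

end Vale.Agent.Lib.P012
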