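import Mathlib

namespace Vale.Agent.Lib.P012

/-- `r`: number of atoms in each of the two families -/
def rr (ρ : ℕ) : ℕ := 2 ^ (ρ - 1) - 2
/-- auxiliary exponent -/
def tau (ρ : ℕ) : ℕ := Nat.log 2 (48 * (ρ + 1) + 1) + 2
/-- group size -/
def tt (ρ : ℕ) : ℕ := 2 ^ (ρ - tau ρ)
/-- number of groups -/
def gg (ρ : ℕ) : ℕ := 2 ^ (tau ρ + 1)

theorem lin_le_pow (ρ : ℕ) (hρ : 16 ≤ ρ) : 64 * (ρ + 1) ≤ 2 ^ (ρ - 2) := by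
  induction ρ, hρ using Nat.le_induction with
  | base => norm_num
  | succ n hn ih =>
    have : n + 1 - 2 = (n - 2) + 1 := by omega
    rw [this, pow_succ]
    omega

theorem tau_le (ρ : ℕ) (hρ : 16 ≤ ρ) : tau ρ + 1 ≤ ρ := by
  unfold tau
  have h1 : 48 * (ρ + 1) + 1 < 2 ^ (ρ - 2) := by
    have := lin_le_pow ρ hρ
    omega
  have h2 : Nat.log 2 (48 * (ρ + 1) + 1) < ρ - 2 := Nat.log_lt_of_lt_pow (by omega) h1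
  omega

theorem gg_mul_tt (ρ : ℕ) (hρ : 16 ≤ ρ) : gg ρ * tt ρ = 2 ^ (ρ + 1) := by
  unfold gg tt
  have := tau_le ρ hρ
  rw [← pow_add]
  exact congrArg (fun k => 2 ^ k) (by omega)

theorem tt_pos (ρ : ℕ) : 0 < tt ρ := by unfold tt; positivity

theorem tt_le (ρ : ℕ) : tt ρ ≤ 2 ^ ρ := by
  unfold tt
  exact Nat.pow_le_pow_right (by norm_num) (by omega)

theorem tt_mul_le (ρ : ℕ) (hρ : 16 ≤ ρ) : tt ρ * (48 * (ρ + 1) + 1) ≤ 2 ^ (ρ - 1) := by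
  have h1 : 48 * (ρ + 1) + 1 < 2 ^ (Nat.log 2 (48 * (ρ + 1) + 1) + 1) :=
    Nat.lt_pow_succ_log_self (by norm_num) _
  have h2 := tau_le ρ hρ
  have h3 : tt ρ * 2 ^ (Nat.log 2 (48 * (ρ + 1) + 1) + 1) = 2 ^ (ρ - 1) := by
    unfold tt
    rw [← pow_add]
    unfold tau at h2 ⊢
    exact congrArg (fun k => 2 ^ k) (by omega)
  calc tt ρ * (48 * (ρ + 1) + 1) ≤ tt ρ * 2 ^ (Nat.log 2 (48 * (ρ + 1) + 1) + 1) :=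
        Nat.mul_le_mul_left _ h1.le
    _ = 2 ^ (ρ - 1) := h3

theorem gg_le (ρ : ℕ) : gg ρ ≤ 8 * (48 * (ρ + 1) + 1) := by
  unfold gg tau
  have h1 : 2 ^ Nat.log 2 (48 * (ρ + 1) + 1) ≤ 48 * (ρ + 1) + 1 :=
    Nat.pow_log_le_self 2 (by omega)
  have : 2 ^ (Nat.log 2 (48 * (ρ + 1) + 1) + 2 + 1) = 8 * 2 ^ Nat.log 2 (48 * (ρ + 1) + 1) := by
    rw [pow_add, pow_add]; ring
  rw [this]
  omega

theorem rr_ge (ρ : ℕ) (hρ : 16 ≤ ρ) : 4 * rr ρ + 8 = 2 ^ (ρ + 1) := by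
  unfold rr
  have h1 : 2 ^ (ρ + 1) = 4 * 2 ^ (ρ - 1) := by
    have : ρ + 1 = (ρ - 1) + 2 := by omega
    rw [this, pow_add]; ring
  have h2 : 2 ^ 15 ≤ 2 ^ (ρ - 1) := Nat.pow_le_pow_right (by norm_num) (by omega)
  omega

/-- (C1) -/
theorem c_one (ρ : ℕ) (hρ : 16 ≤ ρ) :
    2 ^ (tt ρ + 5) * (2 ^ (16 * (ρ + 1))) ^ (3 * tt ρ) ≤ (2 ^ rr ρ) ^ 4 := by
  rw [← pow_mul, ← pow_mul, ← pow_add]
  apply Nat.pow_le_pow_right (by norm_num)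
  have h1 := tt_mul_le ρ hρ
  have h2 := rr_ge ρ hρ
  have h3 : 2 ^ (ρ + 1) = 4 * 2 ^ (ρ - 1) := by
    have : ρ + 1 = (ρ - 1) + 2 := by omega
    rw [this, pow_add]; ring
  have h4 : 2 ^ 15 ≤ 2 ^ (ρ - 1) := Nat.pow_le_pow_right (by norm_num) (by omega)
  have h5 : tt ρ + 5 + 16 * (ρ + 1) * (3 * tt ρ) = tt ρ * (48 * (ρ + 1) + 1) + 5 := by ring
  omega

/-- (C2) -/
theorem c_two (ρ : ℕ) :
    2 ^ 13 * (2 ^ (16 * (ρ + 1))) ^ 3 ≤ (2 ^ (12 * (ρ + 1) + 4)) ^ 4 := by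
  rw [← pow_mul, ← pow_mul, ← pow_add]
  apply Nat.pow_le_pow_right (by norm_num)
  omega

/-- (C3) pool size -/
theorem c_three (ρ P : ℕ) (hρ : 16 ≤ ρ)
    (hP : 2 ^ (16 * (ρ + 1)) ≤ 16 * (ρ + 1) * P + 16 * (ρ + 1) + 1) :
    2 ^ (8 * (ρ + 1)) + 2 ^ (ρ + 1) + (2 ^ (ρ + 1)
      + 2 * 2 ^ (ρ + 1) * tt ρ * 2 ^ (12 * (ρ + 1) + 4)) ≤ P := by
  by_contra hcon
  push Not at hcon
  have ht := tt_le ρ
  have e1 : 2 * 2 ^ (ρ + 1) * tt ρ * 2 ^ (12 * (ρ + 1) + 4) ≤ 2 ^ (14 * (ρ + 1) + 4) := by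
    calc 2 * 2 ^ (ρ + 1) * tt ρ * 2 ^ (12 * (ρ + 1) + 4)
        ≤ 2 * 2 ^ (ρ + 1) * 2 ^ ρ * 2 ^ (12 * (ρ + 1) + 4) :=
          Nat.mul_le_mul_right _ (Nat.mul_le_mul_left _ ht)
      _ = 2 ^ (14 * (ρ + 1) + 4) := by
          have : 14 * (ρ + 1) + 4 = 1 + (ρ + 1) + ρ + (12 * (ρ + 1) + 4) := by ring
          rw [this, pow_add, pow_add, pow_add]; ring
  have e2 : 2 ^ (8 * (ρ + 1)) ≤ 2 ^ (14 * (ρ + 1) + 2) :=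
    Nat.pow_le_pow_right (by norm_num) (by omega)
  have e3 : 2 ^ (ρ + 1) ≤ 2 ^ (14 * (ρ + 1) + 1) :=
    Nat.pow_le_pow_right (by norm_num) (by omega)
  have e4 : 2 ^ (14 * (ρ + 1) + 4) = 4 * 2 ^ (14 * (ρ + 1) + 2) := by
    rw [show 14 * (ρ + 1) + 4 = (14 * (ρ + 1) + 2) + 2 by ring, pow_add]; ring
  have e5 : 2 ^ (14 * (ρ + 1) + 2) = 2 * 2 ^ (14 * (ρ + 1) + 1) := by
    rw [show 14 * (ρ + 1) + 2 = (14 * (ρ + 1) + 1) + 1 by ring, pow_add]; ring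
  have e6 : P + 1 ≤ 2 ^ (14 * (ρ + 1) + 5) := by
    have : 2 ^ (14 * (ρ + 1) + 5) = 2 * 2 ^ (14 * (ρ + 1) + 4) := by
      rw [show 14 * (ρ + 1) + 5 = (14 * (ρ + 1) + 4) + 1 by ring, pow_add]; ring
    omega
  have e7 : 16 * (ρ + 1) ≤ 2 ^ (ρ + 5) := by
    have : ρ + 1 ≤ 2 ^ (ρ + 1) := Nat.lt_two_pow_self.le
    calc 16 * (ρ + 1) ≤ 2 ^ 4 * 2 ^ (ρ + 1) := by omega
      _ = 2 ^ (ρ + 5) := by rw [← pow_add]; exact congrArg (fun k => 2 ^ k) (by omega)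
  have e8 : 16 * (ρ + 1) * (P + 1) ≤ 2 ^ (15 * (ρ + 1) + 9) := by
    calc 16 * (ρ + 1) * (P + 1) ≤ 2 ^ (ρ + 5) * 2 ^ (14 * (ρ + 1) + 5) := Nat.mul_le_mul e7 e6
      _ = 2 ^ (15 * (ρ + 1) + 9) := by rw [← pow_add]; exact congrArg (fun k => 2 ^ k) (by omega)
  have e9 : 2 ^ (15 * (ρ + 1) + 9) + 2 ≤ 2 ^ (16 * (ρ + 1)) := by
    have h1 : 2 ^ (15 * (ρ + 1) + 9 + 1) ≤ 2 ^ (16 * (ρ + 1)) :=
      Nat.pow_le_pow_right (by norm_num) (by omega)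
    have h2 : 2 ^ 1 ≤ 2 ^ (15 * (ρ + 1) + 9) := Nat.pow_le_pow_right (by norm_num) (by omega)
    rw [pow_succ] at h1
    omega
  have e10 : 16 * (ρ + 1) * P + 16 * (ρ + 1) + 1 = 16 * (ρ + 1) * (P + 1) + 1 := by ring
  omega

end Vale.Agent.Lib.P012
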