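import Mathlib

namespace Vale.Agent.Lib.P012

open Finset

theorem primes_count (e : ℕ) : 2 ^ e ≤ e * (Nat.primesLE (2 ^ e)).card + e + 1 := by
  set n := 2 ^ e with hn
  have hnpos : 0 < n := by positivity
  have h1 : 2 ^ n ≤ (n + 1) * Nat.lcmUpto n := Chebyshev.two_pow_le_mul_lcmUpto n
  have h2 : Nat.lcmUpto n ≤ n ^ (Nat.primesLE n).card := by
    rw [Nat.lcmUpto_eq_prod_pow_log, ← Finset.prod_const]
    exact Finset.prod_le_prod' fun p _ => Nat.pow_log_le_self p hnpos.ne'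
  have h3 : n + 1 ≤ 2 ^ (e + 1) := by rw [pow_succ]; omega
  have h4 : 2 ^ n ≤ 2 ^ (e + 1 + e * (Nat.primesLE n).card) := by
    calc 2 ^ n ≤ (n + 1) * Nat.lcmUpto n := h1
      _ ≤ 2 ^ (e + 1) * n ^ (Nat.primesLE n).card := Nat.mul_le_mul h3 h2
      _ = 2 ^ (e + 1 + e * (Nat.primesLE n).card) := by rw [hn, ← pow_mul, ← pow_add]
  have h5 := (Nat.pow_le_pow_iff_right (by norm_num : 1 < 2)).mp h4
  omega

end Vale.Agent.Lib.P012
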