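import Vale.Agent.Lib.P012.Select

namespace Vale.Agent.Lib.P012

open Finset

theorem add_pow_four_le (a b : ℕ) : (a + b) ^ 4 ≤ 8 * a ^ 4 + 8 * b ^ 4 := by
  have h1 : (a + b) ^ 2 ≤ 2 * a ^ 2 + 2 * b ^ 2 := by
    have := two_mul_le_add_sq a b
    nlinarith
  have h2 : (a ^ 2 + b ^ 2) ^ 2 ≤ 2 * (a ^ 2) ^ 2 + 2 * (b ^ 2) ^ 2 := by
    have := two_mul_le_add_sq (a ^ 2) (b ^ 2)
    nlinarith
  calc (a + b) ^ 4 = ((a + b) ^ 2) ^ 2 := by ring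
    _ ≤ (2 * a ^ 2 + 2 * b ^ 2) ^ 2 := Nat.pow_le_pow_left h1 2
    _ = 4 * (a ^ 2 + b ^ 2) ^ 2 := by ring
    _ ≤ 4 * (2 * (a ^ 2) ^ 2 + 2 * (b ^ 2) ^ 2) := Nat.mul_le_mul_left 4 h2
    _ = 8 * a ^ 4 + 8 * b ^ 4 := by ring

theorem verify_term (A B : Finset ℕ) (n U ω t : ℕ) (hA : A.card = n) (hB : B.card = n)
    (hU : 1 ≤ U) (h2 : 2 ^ 13 * U ^ 3 ≤ ω ^ 4)
    (D : Finset ℕ) (hDU : ∀ q ∈ D, q ≤ U) (hDt : D.card ≤ t) (hD1 : 1 ≤ D.card)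
    (hX : XX A B D * ω ^ D.card ≤ 4 * n ^ 2) :
    2 ^ 13 * ((∏ q ∈ D, q) ^ 3 * (coll A D) ^ 2 * (coll B D) ^ 2)
      ≤ 2 ^ 16 * U ^ (3 * t) * n ^ 4 + 2 ^ 9 * n ^ 6 * (XX A B D * ω ^ D.card) := by
  set j := D.card with hj
  set X := XX A B D with hXdef
  have hd : (∏ q ∈ D, q) ≤ U ^ j := Finset.prod_le_pow_card D _ U hDU
  have hd3 : (∏ q ∈ D, q) ^ 3 ≤ U ^ (3 * j) := by
    calc (∏ q ∈ D, q) ^ 3 ≤ (U ^ j) ^ 3 := Nat.pow_le_pow_left hd 3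
      _ = U ^ (3 * j) := by rw [← pow_mul, mul_comm]
  have hcA : coll A D ≤ n + X := by
    rw [coll_eq, hA, hXdef]; unfold XX; omega
  have hcB : coll B D ≤ n + X := by
    rw [coll_eq, hB, hXdef]; unfold XX; omega
  have hc : (coll A D) ^ 2 * (coll B D) ^ 2 ≤ 8 * n ^ 4 + 8 * X ^ 4 := by
    calc (coll A D) ^ 2 * (coll B D) ^ 2 ≤ (n + X) ^ 2 * (n + X) ^ 2 :=
          Nat.mul_le_mul (Nat.pow_le_pow_left hcA 2) (Nat.pow_le_pow_left hcB 2)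
      _ = (n + X) ^ 4 := by ring
      _ ≤ 8 * n ^ 4 + 8 * X ^ 4 := add_pow_four_le n X
  have hUt : U ^ (3 * j) ≤ U ^ (3 * t) := Nat.pow_le_pow_right hU (by omega)
  have hc2 : 2 ^ 13 * U ^ (3 * j) ≤ ω ^ (4 * j) := by
    calc 2 ^ 13 * U ^ (3 * j) ≤ (2 ^ 13) ^ j * U ^ (3 * j) := by
          apply Nat.mul_le_mul_right
          calc 2 ^ 13 = (2 ^ 13) ^ 1 := by norm_num
            _ ≤ (2 ^ 13) ^ j := Nat.pow_le_pow_right (by norm_num) hD1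
      _ = (2 ^ 13 * U ^ 3) ^ j := by rw [mul_pow, ← pow_mul, ← pow_mul]
      _ ≤ (ω ^ 4) ^ j := Nat.pow_le_pow_left h2 j
      _ = ω ^ (4 * j) := by rw [← pow_mul]
  have hd4 : ω ^ (4 * j) * X ^ 4 ≤ 64 * n ^ 6 * (X * ω ^ j) := by
    have e1 : ω ^ (4 * j) * X ^ 4 = (X * ω ^ j) ^ 3 * (X * ω ^ j) := by
      rw [mul_comm 4 j, pow_mul]; ring
    rw [e1]
    have e2 : (X * ω ^ j) ^ 3 ≤ (4 * n ^ 2) ^ 3 := Nat.pow_le_pow_left hX 3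
    calc (X * ω ^ j) ^ 3 * (X * ω ^ j) ≤ (4 * n ^ 2) ^ 3 * (X * ω ^ j) :=
          Nat.mul_le_mul_right _ e2
      _ = 64 * n ^ 6 * (X * ω ^ j) := by ring
  calc 2 ^ 13 * ((∏ q ∈ D, q) ^ 3 * (coll A D) ^ 2 * (coll B D) ^ 2)
      = 2 ^ 13 * ((∏ q ∈ D, q) ^ 3 * ((coll A D) ^ 2 * (coll B D) ^ 2)) := by ring
    _ ≤ 2 ^ 13 * (U ^ (3 * j) * (8 * n ^ 4 + 8 * X ^ 4)) :=
        Nat.mul_le_mul_left _ (Nat.mul_le_mul hd3 hc)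
    _ = 2 ^ 16 * U ^ (3 * j) * n ^ 4 + 8 * ((2 ^ 13 * U ^ (3 * j)) * X ^ 4) := by ring
    _ ≤ 2 ^ 16 * U ^ (3 * t) * n ^ 4 + 8 * (ω ^ (4 * j) * X ^ 4) := by
        apply Nat.add_le_add
        · exact Nat.mul_le_mul_right _ (Nat.mul_le_mul_left _ hUt)
        · exact Nat.mul_le_mul_left _ (Nat.mul_le_mul_right _ hc2)
    _ ≤ 2 ^ 16 * U ^ (3 * t) * n ^ 4 + 8 * (64 * n ^ 6 * (X * ω ^ j)) :=
        Nat.add_le_add_left (Nat.mul_le_mul_left _ hd4) _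
    _ = 2 ^ 16 * U ^ (3 * t) * n ^ 4 + 2 ^ 9 * n ^ 6 * (X * ω ^ j) := by ring

theorem verify (A B G : Finset ℕ) (n U ω t : ℕ) (hA : A.card = n) (hB : B.card = n)
    (hn : 0 < n) (hU : 1 ≤ U) (hGU : ∀ q ∈ G, q ≤ U) (hGt : G.card ≤ t)
    (hPsi : Psi A B ω G ≤ 4 * n ^ 2)
    (h1 : 2 ^ (t + 5) * U ^ (3 * t) ≤ n ^ 4) (h2 : 2 ^ 13 * U ^ 3 ≤ ω ^ 4) :
    ∑ D ∈ G.powerset.erase ∅, (∏ q ∈ D, q) ^ 3 * (coll A D) ^ 2 * (coll B D) ^ 2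
      < A.card ^ 4 * B.card ^ 4 := by
  classical
  rw [hA, hB]
  have hterm : ∀ D ∈ G.powerset.erase ∅,
      2 ^ 13 * ((∏ q ∈ D, q) ^ 3 * (coll A D) ^ 2 * (coll B D) ^ 2)
        ≤ 2 ^ 16 * U ^ (3 * t) * n ^ 4 + 2 ^ 9 * n ^ 6 * (XX A B D * ω ^ D.card) := by
    intro D hD
    rw [Finset.mem_erase, Finset.mem_powerset] at hD
    have hsub := hD.2
    apply verify_term A B n U ω t hA hB hU h2 D (fun q hq => hGU q (hsub hq))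
      ((Finset.card_le_card hsub).trans hGt)
      (Finset.card_pos.mpr (Finset.nonempty_iff_ne_empty.mpr hD.1))
    refine le_trans ?_ hPsi
    unfold Psi
    exact Finset.single_le_sum (f := fun D => XX A B D * ω ^ D.card)
      (fun _ _ => Nat.zero_le _) (Finset.mem_powerset.mpr hsub)
  have hsum : 2 ^ 13 * ∑ D ∈ G.powerset.erase ∅,
      (∏ q ∈ D, q) ^ 3 * (coll A D) ^ 2 * (coll B D) ^ 2
      ≤ 2 ^ t * (2 ^ 16 * U ^ (3 * t) * n ^ 4) + 2 ^ 9 * n ^ 6 * (4 * n ^ 2) := by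
    rw [Finset.mul_sum]
    refine le_trans (Finset.sum_le_sum hterm) ?_
    rw [Finset.sum_add_distrib, Finset.sum_const, smul_eq_mul, ← Finset.mul_sum]
    apply Nat.add_le_add
    · apply Nat.mul_le_mul_right
      calc (G.powerset.erase ∅).card ≤ G.powerset.card := Finset.card_le_card (Finset.erase_subset _ _)
        _ = 2 ^ G.card := Finset.card_powerset G
        _ ≤ 2 ^ t := Nat.pow_le_pow_right (by norm_num) hGt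
    · apply Nat.mul_le_mul_left
      refine le_trans ?_ hPsi
      unfold Psi
      exact Finset.sum_le_sum_of_subset (Finset.erase_subset _ _)
  have h3 : 2 ^ t * (2 ^ 16 * U ^ (3 * t) * n ^ 4) ≤ 2 ^ 11 * (n ^ 4 * n ^ 4) := by
    calc 2 ^ t * (2 ^ 16 * U ^ (3 * t) * n ^ 4)
        = 2 ^ 11 * ((2 ^ (t + 5) * U ^ (3 * t)) * n ^ 4) := by rw [pow_add]; ring
      _ ≤ 2 ^ 11 * (n ^ 4 * n ^ 4) := Nat.mul_le_mul_left _ (Nat.mul_le_mul_right _ h1)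
  have h4 : 2 ^ 9 * n ^ 6 * (4 * n ^ 2) = 2 ^ 11 * (n ^ 4 * n ^ 4) := by ring
  have h5 : 0 < n ^ 4 * n ^ 4 := by positivity
  have h6 : 2 ^ 13 * ∑ D ∈ G.powerset.erase ∅,
      (∏ q ∈ D, q) ^ 3 * (coll A D) ^ 2 * (coll B D) ^ 2 < 2 ^ 13 * (n ^ 4 * n ^ 4) := by
    calc _ ≤ 2 ^ t * (2 ^ 16 * U ^ (3 * t) * n ^ 4) + 2 ^ 9 * n ^ 6 * (4 * n ^ 2) := hsum
      _ ≤ 2 ^ 11 * (n ^ 4 * n ^ 4) + 2 ^ 11 * (n ^ 4 * n ^ 4) := by rw [h4]; omega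
      _ < 2 ^ 13 * (n ^ 4 * n ^ 4) := by omega
  exact lt_of_mul_lt_mul_left h6 (Nat.zero_le _)

end Vale.Agent.Lib.P012
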