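import Vale.Agent.Lib.P012.Cover
import Vale.Agent.Lib.P012.Verify
import Vale.Agent.Lib.P012.Basic
import Vale.Agent.Lib.P012.Params
import Vale.Agent.Lib.P012.Primes

namespace Vale.Agent.Lib.P012

open Finset

/-- all subset products of a finite set -/
def subprods (P : Finset ℕ) : Finset ℕ := P.powerset.image (fun T => ∏ p ∈ T, p)

theorem subprods_card (P : Finset ℕ) (hP : ∀ p ∈ P, p.Prime) :
    (subprods P).card = 2 ^ P.card := by
  unfold subprods
  rw [Finset.card_image_of_injOn, Finset.card_powerset]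
  intro T1 h1 T2 h2 h
  have h1' : ∀ p ∈ T1, p.Prime := fun p hp => hP p (Finset.mem_powerset.mp h1 hp)
  have h2' : ∀ p ∈ T2, p.Prime := fun p hp => hP p (Finset.mem_powerset.mp h2 hp)
  have e1 := Nat.primeFactors_prod h1'
  have e2 := Nat.primeFactors_prod h2'
  have h' : ∏ p ∈ T1, p = ∏ p ∈ T2, p := h
  rw [h'] at e1
  exact e1.symm.trans e2

theorem subprods_dvd (P : Finset ℕ) : ∀ a ∈ subprods P, a ∣ ∏ p ∈ P, p := by
  intro a ha
  unfold subprods at ha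
  obtain ⟨T, hT, rfl⟩ := Finset.mem_image.mp ha
  exact Finset.prod_dvd_prod_of_subset _ _ _ (Finset.mem_powerset.mp hT)

theorem prime_mem_of_dvd_prod (T : Finset ℕ) (hT : ∀ p ∈ T, p.Prime) (q : ℕ) (hq : q.Prime)
    (h : q ∣ ∏ p ∈ T, p) : q ∈ T := by
  obtain ⟨a, ha, hqa⟩ := (Prime.dvd_finsetProd_iff hq.prime _).mp h
  have : q = a := (Nat.prime_dvd_prime_iff_eq hq (hT a ha)).mp hqa
  rw [this]; exact ha

theorem beta_bound (P pool : Finset ℕ) (c β M : ℕ) (hP : ∀ p ∈ P, 0 < p)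
    (hpool : ∀ q ∈ pool, q.Prime ∧ c < q) (hM : ∏ p ∈ P, p ≤ M) (hMc : M ≤ c ^ β) (hc : 0 < c) :
    ∀ p ∈ (subprods P).offDiag, (pool.filter (fun q => p.1 ≡ p.2 [MOD q])).card ≤ β := by
  intro p hp
  rw [Finset.mem_offDiag] at hp
  obtain ⟨h1, h2, hne⟩ := hp
  have hPpos : 0 < ∏ p ∈ P, p := Finset.prod_pos hP
  have hx : p.1 ≤ M := (Nat.le_of_dvd hPpos (subprods_dvd P _ h1)).trans hM
  have hy : p.2 ≤ M := (Nat.le_of_dvd hPpos (subprods_dvd P _ h2)).trans hM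
  set F := pool.filter (fun q => p.1 ≡ p.2 [MOD q]) with hF
  have hdvd : ∏ q ∈ F, q ∣ ((p.2 : ℤ) - p.1).natAbs := by
    apply Finset.prod_primes_dvd
    · intro q hq
      exact (hpool q (Finset.mem_filter.mp hq).1).1.prime
    · intro q hq
      exact (modEq_iff_dvd_natAbs q p.1 p.2).mp (Finset.mem_filter.mp hq).2
  have hpos : 0 < ((p.2 : ℤ) - p.1).natAbs := by
    rw [Int.natAbs_pos]
    intro h
    apply hne
    have : (p.2 : ℤ) = p.1 := by linarith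
    exact_mod_cast this.symm
  have hle : ((p.2 : ℤ) - p.1).natAbs ≤ M := by omega
  have h3 : (c + 1) ^ F.card ≤ ∏ q ∈ F, q :=
    Finset.pow_card_le_prod F _ (c + 1) fun q hq => (hpool q (Finset.mem_filter.mp hq).1).2
  have h4 : (c + 1) ^ F.card ≤ (c + 1) ^ β := by
    calc (c + 1) ^ F.card ≤ ∏ q ∈ F, q := h3
      _ ≤ ((p.2 : ℤ) - p.1).natAbs := Nat.le_of_dvd hpos hdvd
      _ ≤ M := hle
      _ ≤ c ^ β := hMc
      _ ≤ (c + 1) ^ β := Nat.pow_le_pow_left (Nat.le_succ c) β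
  by_contra hcon
  push Not at hcon
  have h5 : (c + 1) ^ β < (c + 1) ^ F.card :=
    Nat.pow_lt_pow_right (by omega) hcon
  omega

/-- the pool of fresh primes at level `ρ` relative to `N` -/
def pool (ρ N : ℕ) : Finset ℕ :=
  ((Nat.primesLE (2 ^ (16 * (ρ + 1)))).filter (fun q => 2 ^ (8 * (ρ + 1)) < q)) \ N.primeFactors

theorem mem_pool {ρ N q : ℕ} (h : q ∈ pool ρ N) :
    q.Prime ∧ 2 ^ (8 * (ρ + 1)) < q ∧ q ≤ 2 ^ (16 * (ρ + 1)) ∧ q ∉ N.primeFactors := by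
  unfold pool at h
  rw [Finset.mem_sdiff, Finset.mem_filter, Nat.mem_primesLE] at h
  exact ⟨h.1.1.2, h.1.2, h.1.1.1, h.2⟩

theorem pool_card (ρ N : ℕ) (hρ : 16 ≤ ρ) (hN : N.primeFactors.card ≤ 2 ^ (ρ + 1)) :
    gg ρ * tt ρ + 2 * 2 ^ (ρ + 1) * tt ρ * 2 ^ (12 * (ρ + 1) + 4) ≤ (pool ρ N).card := by
  classical
  have h1 := primes_count (16 * (ρ + 1))
  have h2 := c_three ρ _ hρ h1
  set PL := Nat.primesLE (2 ^ (16 * (ρ + 1))) with hPL
  set c := 2 ^ (8 * (ρ + 1)) with hc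
  have h3 : PL.card ≤ (PL.filter (fun q => c < q)).card + c := by
    have h4 : (PL.filter (fun q => ¬ c < q)).card ≤ c := by
      have hsub : PL.filter (fun q => ¬ c < q) ⊆ Finset.Icc 1 c := by
        intro q hq
        rw [Finset.mem_filter, hPL, Nat.mem_primesLE] at hq
        rw [Finset.mem_Icc]
        exact ⟨hq.1.2.one_lt.le, by omega⟩
      calc (PL.filter (fun q => ¬ c < q)).card ≤ (Finset.Icc 1 c).card := Finset.card_le_card hsub
        _ = c := by simp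
    have h5 := Finset.card_filter_add_card_filter_not (s := PL) (fun q => c < q)
    omega
  have h6 : (PL.filter (fun q => c < q)).card - N.primeFactors.card ≤ (pool ρ N).card := by
    unfold pool
    exact Finset.le_card_sdiff _ _
  rw [gg_mul_tt ρ hρ]
  omega

theorem tower_list {N F M k : ℕ} (hN : Good N F) (hMN : M ∣ N) (hNpos : 0 < N)
    (hkM : k * M ≤ N) :
    ∀ Qs : List ℕ,
      (∀ Q ∈ Qs, 1 < Q ∧ Nat.Coprime Q N ∧ ∀ x : ℕ, ∃ T : Finset ℕ,
        (∀ t ∈ T, t ∣ M) ∧ T.card ≤ k ∧ (∑ t ∈ T, t) ≡ x [MOD Q]) →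
      Qs.Pairwise Nat.Coprime → Good (Qs.prod * N) (F + k * Qs.length) := by
  intro Qs
  induction Qs with
  | nil =>
    intro _ _
    simpa using hN
  | cons Q Qs ih =>
    intro h hp
    rw [List.pairwise_cons] at hp
    have ih' := ih (fun Q' hQ' => h Q' (List.mem_cons_of_mem _ hQ')) hp.2
    obtain ⟨hQ1, hQN, hQc⟩ := h Q List.mem_cons_self
    have hprodpos : 0 < Qs.prod := by
      apply List.prod_pos
      intro Q' hQ'
      have := (h Q' (List.mem_cons_of_mem _ hQ')).1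
      omega
    have hcop : Nat.Coprime Q (Qs.prod * N) :=
      Nat.Coprime.mul_right (Nat.coprime_list_prod_right_iff.mpr hp.1) hQN
    have hle : N ≤ Qs.prod * N := Nat.le_mul_of_pos_left N hprodpos
    have := tower ih' (dvd_mul_of_dvd_right hMN Qs.prod) (Nat.mul_pos hprodpos hNpos)
      (hkM.trans hle) hQ1 hcop hQc
    rw [List.prod_cons, List.length_cons, mul_assoc]
    have e : F + k * (Qs.length + 1) = F + k * Qs.length + k := by ring
    rw [e]
    exact this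

/-- one group: every residue modulo the product of `G` is a sum of at most four divisors
of the product of `S` -/
theorem group_cover (S W PA PB G : Finset ℕ) (hS : ∀ p ∈ S, p.Prime)
    (hW : W ⊆ S) (hWc : W.card = 4) (hPA : PA ⊆ S) (hPB : PB ⊆ S)
    (hWA : Disjoint W PA) (hWB : Disjoint W PB) (hAB : Disjoint PA PB)
    (hG : ∀ q ∈ G, q.Prime) (hGS : ∀ q ∈ G, q ∉ S)
    (hsum : ∑ D ∈ G.powerset.erase ∅,
        (∏ q ∈ D, q) ^ 3 * (coll (subprods PA) D) ^ 2 * (coll (subprods PB) D) ^ 2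
      < (subprods PA).card ^ 4 * (subprods PB).card ^ 4) (x : ℕ) :
    ∃ T : Finset ℕ, (∀ t ∈ T, t ∣ ∏ p ∈ S, p) ∧ T.card ≤ 4 ∧
      (∑ t ∈ T, t) ≡ x [MOD ∏ q ∈ G, q] := by
  classical
  set w : Fin 4 → ℕ := fun i => W.orderEmbOfFin hWc i with hwdef
  have hwW : ∀ i, w i ∈ W := fun i => Finset.orderEmbOfFin_mem W hWc i
  have hwp : ∀ i, (w i).Prime := fun i => hS _ (hW (hwW i))
  have hw : ∀ i, ∀ q ∈ G, ¬ q ∣ w i := by
    intro i q hq hdvd
    have : q = w i := (Nat.prime_dvd_prime_iff_eq (hG q hq) (hwp i)).mp hdvd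
    exact hGS q hq (this ▸ hW (hwW i))
  obtain ⟨a, b, ha, hb, hab⟩ := cover G hG (subprods PA) (subprods PB) w hw hsum x
  have haT : ∀ i, ∃ T1 ⊆ PA, a i = ∏ p ∈ T1, p := by
    intro i
    have := ha i
    unfold subprods at this
    obtain ⟨T1, hT1, e⟩ := Finset.mem_image.mp this
    exact ⟨T1, Finset.mem_powerset.mp hT1, e.symm⟩
  have hbT : ∀ i, ∃ T2 ⊆ PB, b i = ∏ p ∈ T2, p := by
    intro i
    have := hb i
    unfold subprods at this
    obtain ⟨T2, hT2, e⟩ := Finset.mem_image.mp this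
    exact ⟨T2, Finset.mem_powerset.mp hT2, e.symm⟩
  have hinj : Function.Injective (fun i => w i * a i * b i) := by
    intro i j hij
    have hij' : w i * a i * b i = w j * a j * b j := hij
    have h1 : w i ∣ w j * a j * b j := by
      rw [← hij', mul_assoc]; exact dvd_mul_right _ _
    rcases (Nat.Prime.dvd_mul (hwp i)).mp h1 with h2 | h2
    · rcases (Nat.Prime.dvd_mul (hwp i)).mp h2 with h3 | h3
      · have h4 : w i = w j := (Nat.prime_dvd_prime_iff_eq (hwp i) (hwp j)).mp h3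
        exact (W.orderEmbOfFin hWc).injective h4
      · obtain ⟨T1, hT1, e⟩ := haT j
        rw [e] at h3
        have h5 := prime_mem_of_dvd_prod T1 (fun p hp => hS p (hPA (hT1 hp))) _ (hwp i) h3
        exact absurd (hT1 h5) (Finset.disjoint_left.mp hWA (hwW i))
    · obtain ⟨T2, hT2, e⟩ := hbT j
      rw [e] at h2
      have h5 := prime_mem_of_dvd_prod T2 (fun p hp => hS p (hPB (hT2 hp))) _ (hwp i) h2
      exact absurd (hT2 h5) (Finset.disjoint_left.mp hWB (hwW i))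
  have hprod : (∏ p ∈ W, p) * ((∏ p ∈ PA, p) * (∏ p ∈ PB, p)) ∣ ∏ p ∈ S, p := by
    rw [← Finset.prod_union hAB, ← Finset.prod_union (Finset.disjoint_union_right.mpr ⟨hWA, hWB⟩)]
    exact Finset.prod_dvd_prod_of_subset _ _ _
      (Finset.union_subset hW (Finset.union_subset hPA hPB))
  refine ⟨Finset.univ.image (fun i => w i * a i * b i), ?_, ?_, ?_⟩
  · intro t ht
    obtain ⟨i, _, rfl⟩ := Finset.mem_image.mp ht
    refine dvd_trans ?_ hprod
    rw [mul_assoc]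
    exact mul_dvd_mul (Finset.dvd_prod_of_mem _ (hwW i))
      (mul_dvd_mul (subprods_dvd PA _ (ha i)) (subprods_dvd PB _ (hb i)))
  · exact le_trans Finset.card_image_le (by simp)
  · rw [Finset.sum_image (fun i _ j _ h => hinj h)]
    exact hab

/-- the state carried through the levels -/
def St (ρ N F : ℕ) (S : Finset ℕ) : Prop :=
  (∀ p ∈ S, p.Prime) ∧ (∀ p ∈ S, p ≤ 2 ^ (16 * ρ)) ∧ S.card = 2 ^ ρ ∧ (∏ p ∈ S, p) ∣ N ∧
  4 * ∏ p ∈ S, p ≤ N ∧ Good N F ∧ N.primeFactors.card ≤ 2 ^ (ρ + 1) ∧ 2 ^ (2 ^ ρ) ≤ N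

theorem level_step (ρ N F : ℕ) (S : Finset ℕ) (hρ : 16 ≤ ρ) (h : St ρ N F S) :
    ∃ N' S', St (ρ + 1) N' (F + 4 * gg ρ) S' := by
  classical
  obtain ⟨hSp, hSle, hSc, hSN, h4S, hGood, hpf, hNbig⟩ := h
  have hNpos : 0 < N := lt_of_lt_of_le (by positivity) hNbig
  have hSpos : 0 < ∏ p ∈ S, p := Finset.prod_pos fun p hp => (hSp p hp).pos
  have hr : 2 * rr ρ + 4 = 2 ^ ρ := by
    have := rr_ge ρ hρ
    rw [pow_succ] at this
    omega
  obtain ⟨W, hWS, hWc⟩ := Finset.exists_subset_card_eq (s := S) (n := 4) (by omega)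
  obtain ⟨PA, hPAS, hPAc⟩ := Finset.exists_subset_card_eq (s := S \ W) (n := rr ρ) (by
    rw [Finset.card_sdiff_of_subset hWS]; omega)
  obtain ⟨PB, hPBS, hPBc⟩ := Finset.exists_subset_card_eq (s := (S \ W) \ PA) (n := rr ρ) (by
    rw [Finset.card_sdiff_of_subset hPAS, Finset.card_sdiff_of_subset hWS]; omega)
  have hPA_S : PA ⊆ S := hPAS.trans Finset.sdiff_subset
  have hPB_S : PB ⊆ S := (hPBS.trans Finset.sdiff_subset).trans Finset.sdiff_subset
  have hWA : Disjoint W PA := by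
    rw [Finset.disjoint_left]
    intro x hxW hxA
    exact (Finset.mem_sdiff.mp (hPAS hxA)).2 hxW
  have hWB : Disjoint W PB := by
    rw [Finset.disjoint_left]
    intro x hxW hxB
    exact (Finset.mem_sdiff.mp (Finset.mem_sdiff.mp (hPBS hxB)).1).2 hxW
  have hAB : Disjoint PA PB := by
    rw [Finset.disjoint_left]
    intro x hxA hxB
    exact (Finset.mem_sdiff.mp (hPBS hxB)).2 hxA
  set A := subprods PA with hAdef
  set B := subprods PB with hBdef
  set n := 2 ^ rr ρ with hn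
  set ω := 2 ^ (12 * (ρ + 1) + 4) with hω
  have hnpos : 0 < n := by positivity
  have hAc : A.card = n := by
    rw [hAdef, subprods_card PA (fun p hp => hSp p (hPA_S hp)), hPAc]
  have hBc : B.card = n := by
    rw [hBdef, subprods_card PB (fun p hp => hSp p (hPB_S hp)), hPBc]
  have hMc : (2 ^ (16 * ρ)) ^ (2 ^ ρ) ≤ (2 ^ (8 * (ρ + 1))) ^ (2 ^ (ρ + 1)) := by
    rw [← pow_mul, ← pow_mul]
    apply Nat.pow_le_pow_right (by norm_num)
    have : 8 * (ρ + 1) * 2 ^ (ρ + 1) = 16 * (ρ + 1) * 2 ^ ρ := by rw [pow_succ]; ring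
    rw [this]
    exact Nat.mul_le_mul_right _ (by omega)
  have hM : ∀ P : Finset ℕ, P ⊆ S → P.card = rr ρ → ∏ p ∈ P, p ≤ (2 ^ (16 * ρ)) ^ (2 ^ ρ) := by
    intro P hPS hPc
    calc ∏ p ∈ P, p ≤ (2 ^ (16 * ρ)) ^ P.card :=
          Finset.prod_le_pow_card P _ _ (fun p hp => hSle p (hPS hp))
      _ ≤ (2 ^ (16 * ρ)) ^ (2 ^ ρ) := Nat.pow_le_pow_right (by positivity) (by rw [hPc]; omega)
  have hpoolp : ∀ q ∈ pool ρ N, q.Prime ∧ 2 ^ (8 * (ρ + 1)) < q :=
    fun q hq => ⟨(mem_pool hq).1, (mem_pool hq).2.1⟩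
  have hbA := beta_bound PA (pool ρ N) (2 ^ (8 * (ρ + 1))) (2 ^ (ρ + 1)) _
    (fun p hp => (hSp p (hPA_S hp)).pos) hpoolp (hM PA hPA_S hPAc) hMc (by positivity)
  have hbB := beta_bound PB (pool ρ N) (2 ^ (8 * (ρ + 1))) (2 ^ (ρ + 1)) _
    (fun p hp => (hSp p (hPB_S hp)).pos) hpoolp (hM PB hPB_S hPBc) hMc (by positivity)
  obtain ⟨L, U, hLlen, hUpool, hUc, hUprod, hLG, hLd⟩ :=
    select A B (pool ρ N) (2 ^ (ρ + 1)) ω (tt ρ) (tt_pos ρ) hbA hbB (gg ρ)
      (pool_card ρ N hρ hpf)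
  have hPsi0 : Psi A B ω ∅ ≤ 2 * n ^ 2 := by
    unfold Psi
    rw [Finset.powerset_empty, Finset.sum_singleton, Finset.card_empty, pow_zero, mul_one]
    unfold XX offc
    have h1 : (A.offDiag.filter (fun p : ℕ × ℕ => ∀ q ∈ (∅ : Finset ℕ), p.1 ≡ p.2 [MOD q])).card
        ≤ n ^ 2 := by
      refine le_trans (Finset.card_filter_le _ _) ?_
      rw [Finset.offDiag_card, hAc, sq]
      exact Nat.sub_le _ _
    have h2 : (B.offDiag.filter (fun p : ℕ × ℕ => ∀ q ∈ (∅ : Finset ℕ), p.1 ≡ p.2 [MOD q])).card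
        ≤ n ^ 2 := by
      refine le_trans (Finset.card_filter_le _ _) ?_
      rw [Finset.offDiag_card, hBc, sq]
      exact Nat.sub_le _ _
    omega
  have hUprime : ∀ q ∈ U, q.Prime := fun q hq => (mem_pool (hUpool hq)).1
  have hUS : ∀ q ∈ U, q ∉ S := by
    intro q hq hqS
    apply (mem_pool (hUpool hq)).2.2.2
    rw [Nat.mem_primeFactors]
    exact ⟨hUprime q hq, dvd_trans (Finset.dvd_prod_of_mem _ hqS) hSN, hNpos.ne'⟩
  have hUN : ∀ q ∈ U, ¬ q ∣ N := by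
    intro q hq hdvd
    apply (mem_pool (hUpool hq)).2.2.2
    rw [Nat.mem_primeFactors]
    exact ⟨hUprime q hq, hdvd, hNpos.ne'⟩
  have hQs : ∀ Q ∈ L.map (fun G => ∏ q ∈ G, q), 1 < Q ∧ Nat.Coprime Q N ∧ ∀ x : ℕ,
      ∃ T : Finset ℕ, (∀ t ∈ T, t ∣ ∏ p ∈ S, p) ∧ T.card ≤ 4 ∧ (∑ t ∈ T, t) ≡ x [MOD Q] := by
    intro Q hQ
    obtain ⟨G, hGL, rfl⟩ := List.mem_map.mp hQ
    obtain ⟨hGU, hGc, hGPsi⟩ := hLG G hGL
    have hGprime : ∀ q ∈ G, q.Prime := fun q hq => hUprime q (hGU hq)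
    refine ⟨?_, ?_, ?_⟩
    · have h1 : 2 ^ G.card ≤ ∏ q ∈ G, q :=
        Finset.pow_card_le_prod G _ 2 fun q hq => (hGprime q hq).two_le
      have h2 : 2 ^ 1 ≤ 2 ^ G.card := Nat.pow_le_pow_right (by norm_num) (by
        rw [hGc]; exact tt_pos ρ)
      omega
    · exact Nat.Coprime.prod_left fun q hq =>
        (Nat.Prime.coprime_iff_not_dvd (hGprime q hq)).mpr (hUN q (hGU hq))
    · intro x
      have hsum := verify A B G n (2 ^ (16 * (ρ + 1))) ω (tt ρ) hAc hBc hnpos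
        (Nat.one_le_two_pow) (fun q hq => (mem_pool (hUpool (hGU hq))).2.2.1) hGc.le
        (by omega) (c_one ρ hρ) (c_two ρ)
      exact group_cover S W PA PB G hSp hWS hWc hPA_S hPB_S hWA hWB hAB hGprime
        (fun q hq => hUS q (hGU hq)) hsum x
  have hpw : (L.map (fun G => ∏ q ∈ G, q)).Pairwise Nat.Coprime := by
    rw [List.pairwise_map]
    refine hLd.imp_of_mem ?_
    intro G1 G2 h1 h2 hdisj
    refine Nat.Coprime.prod_left fun p hp => Nat.Coprime.prod_right fun q hq => ?_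
    rw [Nat.coprime_primes (hUprime p ((hLG G1 h1).1 hp)) (hUprime q ((hLG G2 h2).1 hq))]
    intro hpq
    exact Finset.disjoint_left.mp hdisj hp (hpq ▸ hq)
  have hgood := tower_list hGood hSN hNpos h4S (L.map (fun G => ∏ q ∈ G, q)) hQs hpw
  rw [← hUprod, List.length_map, hLlen] at hgood
  have hUcard : U.card = 2 ^ (ρ + 1) := by rw [hUc, gg_mul_tt ρ hρ]
  have hUpos : 0 < ∏ q ∈ U, q := Finset.prod_pos fun q hq => (hUprime q hq).pos
  have hUbig : 2 ^ (2 ^ (ρ + 1)) ≤ ∏ q ∈ U, q := by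
    rw [← hUcard]
    exact Finset.pow_card_le_prod U _ 2 fun q hq => (hUprime q hq).two_le
  refine ⟨(∏ q ∈ U, q) * N, U, hUprime, fun q hq => (mem_pool (hUpool hq)).2.2.1, hUcard,
    dvd_mul_right _ _, ?_, hgood, ?_, ?_⟩
  · rw [mul_comm]
    exact Nat.mul_le_mul_left _ (by omega)
  · rw [Nat.primeFactors_mul hUpos.ne' hNpos.ne', Nat.primeFactors_prod hUprime]
    refine le_trans (Finset.card_union_le _ _) ?_
    rw [hUcard]
    have : 2 ^ (ρ + 1 + 1) = 2 ^ (ρ + 1) + 2 ^ (ρ + 1) := by rw [pow_succ]; ring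
    omega
  · calc 2 ^ (2 ^ (ρ + 1)) ≤ ∏ q ∈ U, q := hUbig
      _ ≤ (∏ q ∈ U, q) * N := Nat.le_mul_of_pos_right _ hNpos

end Vale.Agent.Lib.P012
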