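import Vale.Agent.Lib.P012.Level

namespace Vale.Agent.Lib.P012

open Finset

theorem base_state_sq : ∃ N F S, St 16 N F S := by
  classical
  have h1 := primes_count 256
  have h2 : 2 ^ 16 ≤ (Nat.primesLE (2 ^ 256)).card := by
    by_contra hcon
    push Not at hcon
    have h3 : (2 : ℕ) ^ 25 ≤ 2 ^ 256 := Nat.pow_le_pow_right (by norm_num) (by norm_num)
    have h4 : (2 : ℕ) ^ 25 = 33554432 := by norm_num
    have h5 : (2 : ℕ) ^ 16 = 65536 := by norm_num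
    rw [h4] at h3
    rw [h5] at hcon
    generalize (Nat.primesLE (2 ^ 256)).card = P at h1 hcon
    generalize (2 : ℕ) ^ 256 = X at h1 h3
    omega
  obtain ⟨S, hSsub, hSc⟩ := Finset.exists_subset_card_eq h2
  have hSp : ∀ p ∈ S, p.Prime := fun p hp => (Nat.mem_primesLE.mp (hSsub hp)).2
  have hMpos : 0 < ∏ p ∈ S, p := Finset.prod_pos fun p hp => (hSp p hp).pos
  have hMbig : 2 ^ (2 ^ 16) ≤ ∏ p ∈ S, p := by
    rw [← hSc]
    exact Finset.pow_card_le_prod S _ 2 fun p hp => (hSp p hp).two_le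
  have hMlt : ∏ p ∈ S, p < 2 ^ (Nat.log 2 (∏ p ∈ S, p) + 1) :=
    Nat.lt_pow_succ_log_self (by norm_num) _
  have h4 : 4 ≤ 2 ^ (Nat.log 2 (∏ p ∈ S, p) + 1) := by
    have e1 : (2 : ℕ) ^ 2 ≤ 2 ^ (2 ^ 16) := Nat.pow_le_pow_right (by norm_num) (by norm_num)
    have e2 : (2 : ℕ) ^ 2 = 4 := by norm_num
    rw [e2] at e1
    exact le_trans e1 (le_trans hMbig hMlt.le)
  refine ⟨(∏ p ∈ S, p) * 2 ^ (Nat.log 2 (∏ p ∈ S, p) + 1), 2 * (Nat.log 2 (∏ p ∈ S, p) + 1), S,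
    hSp, ?_, hSc, dvd_mul_right _ _, ?_, good_mul (good_two_pow _) hMpos hMlt.le, ?_, ?_⟩
  · intro p hp
    exact (Nat.mem_primesLE.mp (hSsub hp)).1
  · rw [mul_comm]
    exact Nat.mul_le_mul_left _ h4
  · rw [Nat.primeFactors_mul hMpos.ne' (by positivity), Nat.primeFactors_prod hSp,
      Nat.primeFactors_prime_pow (by omega) Nat.prime_two]
    refine le_trans (Finset.card_union_le _ _) ?_
    rw [hSc, Finset.card_singleton]
    norm_num
  · exact le_trans hMbig (Nat.le_mul_of_pos_right _ (by positivity))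

theorem iterate (N0 F0 : ℕ) (S0 : Finset ℕ) (h0 : St 16 N0 F0 S0) :
    ∀ J : ℕ, ∃ N F S, St (16 + J) N F S ∧ F ≤ F0 + 32 * J * (48 * (16 + J) + 1) := by
  intro J
  induction J with
  | zero => exact ⟨N0, F0, S0, h0, by simp⟩
  | succ J ih =>
    obtain ⟨N, F, S, hSt, hF⟩ := ih
    obtain ⟨N', S', hSt'⟩ := level_step (16 + J) N F S (by omega) hSt
    refine ⟨N', F + 4 * gg (16 + J), S', hSt', ?_⟩
    have hg := gg_le (16 + J)
    nlinarith

theorem main_nat_sq : ∃ F0 : ℕ, ∀ a b : ℕ, 0 < a → a < b →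
    ∃ S : Finset ℕ, (∀ n ∈ S, 2 ≤ n) ∧
      S.card ≤ 2 * (F0 + 32 * Nat.log 2 (Nat.log 2 b)
        * (48 * (16 + Nat.log 2 (Nat.log 2 b)) + 1)) ∧
      ∑ n ∈ S, (1 / (n : ℚ)) = (a : ℚ) / b := by
  obtain ⟨N0, F0, S0, h0⟩ := base_state_sq
  refine ⟨F0, ?_⟩
  intro a b ha hab
  obtain ⟨N, F, S, hSt, hF⟩ := iterate N0 F0 S0 h0 (Nat.log 2 (Nat.log 2 b))
  obtain ⟨-, -, -, -, -, hGood, -, hNbig⟩ := hSt
  have h1 : b < 2 ^ (Nat.log 2 b + 1) := Nat.lt_pow_succ_log_self (by norm_num) b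
  have h2 : Nat.log 2 b < 2 ^ (Nat.log 2 (Nat.log 2 b) + 1) :=
    Nat.lt_pow_succ_log_self (by norm_num) _
  have h3 : 2 ^ (Nat.log 2 (Nat.log 2 b) + 1) ≤ 2 ^ (16 + Nat.log 2 (Nat.log 2 b)) :=
    Nat.pow_le_pow_right (by norm_num) (by omega)
  have h4 : 2 ^ (Nat.log 2 b + 1) ≤ 2 ^ (2 ^ (16 + Nat.log 2 (Nat.log 2 b))) :=
    Nat.pow_le_pow_right (by norm_num) (by omega)
  have hbN : b ≤ N := le_trans h1.le (le_trans h4 hNbig)
  obtain ⟨T, t1, t2, t3⟩ := erdos hGood ha hab hbN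
  exact ⟨T, t1, le_trans t2 (Nat.mul_le_mul_left 2 hF), t3⟩

theorem main_real : ∃ C : ℝ, ∀ a b : ℕ, 0 < a → a < b → 16 ≤ b →
    ∃ S : Finset ℕ, (∀ n ∈ S, 2 ≤ n) ∧
      (S.card : ℝ) ≤ C * (Real.log (Real.log b)) ^ 2 ∧
      ∑ n ∈ S, (1 / (n : ℚ)) = (a : ℚ) / b := by
  obtain ⟨F0, h⟩ := main_nat_sq
  refine ⟨2 * F0 + 175296, ?_⟩
  intro a b ha hab hb
  obtain ⟨S, s1, s2, s3⟩ := h a b ha hab
  refine ⟨S, s1, ?_, s3⟩
  set L := Nat.log 2 b with hL
  set j := Nat.log 2 L with hj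
  have hl1 := Real.log_two_gt_d9
  have hl2 := Real.log_two_lt_d9
  have he := Real.exp_one_lt_d9
  have hb16 : (16 : ℝ) ≤ b := by exact_mod_cast hb
  have hbpos : (0 : ℝ) < b := by linarith
  have hlog16 : Real.log 16 = 4 * Real.log 2 := by
    rw [show (16 : ℝ) = 2 ^ 4 by norm_num, Real.log_pow]; norm_num
  have hlogb : 4 * Real.log 2 ≤ Real.log b := by
    rw [← hlog16]; exact Real.log_le_log (by norm_num) hb16
  have hlogbpos : 0 < Real.log b := by linarith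
  have hX : 1 < Real.log (Real.log b) := by
    rw [Real.lt_log_iff_exp_lt hlogbpos]
    linarith
  have hL4 : 4 ≤ L := by
    rw [hL]
    exact (Nat.le_log_iff_pow_le (by norm_num) (by omega)).mpr (by omega)
  have hLb : (2 : ℕ) ^ L ≤ b := Nat.pow_log_le_self 2 (by omega)
  have hjL : (2 : ℕ) ^ j ≤ L := Nat.pow_log_le_self 2 (by omega)
  have hLr : (L : ℝ) * Real.log 2 ≤ Real.log b := by
    have e1 : ((2 : ℝ)) ^ L ≤ b := by exact_mod_cast hLb
    have e2 := Real.log_le_log (by positivity) e1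
    rw [Real.log_pow] at e2
    exact e2
  have hLpos : (0 : ℝ) < L := by
    have : (4 : ℝ) ≤ L := by exact_mod_cast hL4
    linarith
  have hL2 : (L : ℝ) ≤ 2 * Real.log b := by nlinarith
  have hjr : (j : ℝ) * Real.log 2 ≤ Real.log 2 + Real.log (Real.log b) := by
    have e1 : ((2 : ℝ)) ^ j ≤ L := by exact_mod_cast hjL
    have e2 := Real.log_le_log (by positivity) e1
    rw [Real.log_pow] at e2
    have e3 := Real.log_le_log hLpos hL2
    rw [Real.log_mul (by norm_num) hlogbpos.ne'] at e3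
    linarith
  set X := Real.log (Real.log b) with hXdef
  have hj0 : (0 : ℝ) ≤ j := Nat.cast_nonneg j
  have hj3 : (j : ℝ) ≤ 3 * X := by
    by_contra hcon
    push Not at hcon
    nlinarith [mul_pos (sub_pos.mpr hcon) (show (0 : ℝ) < Real.log 2 by linarith),
      mul_nonneg (show (0 : ℝ) ≤ Real.log 2 - 0.6931471803 by linarith)
        (show (0 : ℝ) ≤ 3 * X - 1 by linarith)]
  have hXX : X ≤ X ^ 2 := by nlinarith
  have hX1 : 1 ≤ X ^ 2 := by nlinarith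
  have hjsq : (j : ℝ) ^ 2 ≤ 9 * X ^ 2 := by nlinarith
  have hcast : (S.card : ℝ) ≤ 2 * ((F0 : ℝ) + 32 * j * (48 * (16 + j) + 1)) := by
    exact_mod_cast s2
  have hF0 : (0 : ℝ) ≤ F0 := Nat.cast_nonneg F0
  nlinarith

end Vale.Agent.Lib.P012
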