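import Vale.Agent.Lib.P012.FourierStruct

namespace Vale.Agent.Lib.P012

open Finset

/-- off-diagonal pairs of `A` congruent modulo every `q ∈ D` -/
def offc (A D : Finset ℕ) : ℕ :=
  (A.offDiag.filter (fun p : ℕ × ℕ => ∀ q ∈ D, p.1 ≡ p.2 [MOD q])).card

theorem coll_eq (A D : Finset ℕ) : coll A D = A.card + offc A D := by
  unfold coll offc
  rw [← Finset.diag_union_offDiag, Finset.filter_union,
    Finset.card_union_of_disjoint
      (Finset.disjoint_filter_filter (Finset.disjoint_diag_offDiag A))]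
  congr 1
  rw [← Finset.diag_card A]
  congr 1
  apply Finset.filter_true_of_mem
  intro p hp q _
  rw [Finset.mem_diag] at hp
  rw [hp.2]

/-- combined off-diagonal collision count -/
def XX (A B D : Finset ℕ) : ℕ := offc A D + offc B D

/-- the weighted potential -/
def Psi (A B : Finset ℕ) (ω : ℕ) (G : Finset ℕ) : ℕ :=
  ∑ D ∈ G.powerset, XX A B D * ω ^ D.card

theorem offc_insert_sum (A pool : Finset ℕ) (β : ℕ)
    (hβ : ∀ p ∈ A.offDiag, (pool.filter (fun q => p.1 ≡ p.2 [MOD q])).card ≤ β)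
    (C : Finset ℕ) (hC : C ⊆ pool) (D : Finset ℕ) :
    ∑ q ∈ C, offc A (insert q D) ≤ β * offc A D := by
  classical
  have h1 : ∀ q, offc A (insert q D)
      = ∑ p ∈ A.offDiag.filter (fun p : ℕ × ℕ => ∀ q' ∈ D, p.1 ≡ p.2 [MOD q']),
          if p.1 ≡ p.2 [MOD q] then 1 else 0 := by
    intro q
    unfold offc
    rw [← Finset.card_filter, Finset.filter_filter]
    congr 1
    refine Finset.filter_congr fun p _ => ?_
    rw [Finset.forall_mem_insert, and_comm]
  simp_rw [h1]
  rw [Finset.sum_comm]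
  unfold offc
  rw [mul_comm, ← smul_eq_mul, ← Finset.sum_const]
  refine Finset.sum_le_sum fun p hp => ?_
  rw [← Finset.card_filter]
  refine le_trans (Finset.card_le_card ?_) (hβ p (Finset.mem_filter.mp hp).1)
  intro q hq
  rw [Finset.mem_filter] at hq ⊢
  exact ⟨hC hq.1, hq.2⟩

theorem Psi_insert (A B : Finset ℕ) (ω : ℕ) (G : Finset ℕ) (q : ℕ) (hq : q ∉ G) :
    Psi A B ω (insert q G)
      = Psi A B ω G + ∑ D ∈ G.powerset, XX A B (insert q D) * ω ^ (D.card + 1) := by
  classical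
  unfold Psi
  rw [Finset.sum_powerset_insert hq]
  congr 1
  refine Finset.sum_congr rfl fun D hD => ?_
  rw [Finset.card_insert_of_notMem (fun h => hq (Finset.mem_powerset.mp hD h))]

theorem exists_good (A B pool : Finset ℕ) (β ω : ℕ)
    (hA : ∀ p ∈ A.offDiag, (pool.filter (fun q => p.1 ≡ p.2 [MOD q])).card ≤ β)
    (hB : ∀ p ∈ B.offDiag, (pool.filter (fun q => p.1 ≡ p.2 [MOD q])).card ≤ β)
    (G C : Finset ℕ) (hC : C ⊆ pool) (hne : C.Nonempty) :
    ∃ q ∈ C, C.card * (∑ D ∈ G.powerset, XX A B (insert q D) * ω ^ (D.card + 1))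
      ≤ ω * β * Psi A B ω G := by
  classical
  obtain ⟨q, hq, hmin⟩ := Finset.exists_min_image C
    (fun q => ∑ D ∈ G.powerset, XX A B (insert q D) * ω ^ (D.card + 1)) hne
  refine ⟨q, hq, ?_⟩
  have h1 : C.card * (∑ D ∈ G.powerset, XX A B (insert q D) * ω ^ (D.card + 1))
      ≤ ∑ q' ∈ C, ∑ D ∈ G.powerset, XX A B (insert q' D) * ω ^ (D.card + 1) := by
    rw [← smul_eq_mul, ← Finset.sum_const]
    exact Finset.sum_le_sum fun q' hq' => hmin q' hq'
  refine h1.trans ?_
  rw [Finset.sum_comm]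
  unfold Psi
  rw [Finset.mul_sum]
  refine Finset.sum_le_sum fun D _ => ?_
  rw [← Finset.sum_mul]
  have h2 : ∑ q' ∈ C, XX A B (insert q' D) ≤ β * XX A B D := by
    unfold XX
    rw [Finset.sum_add_distrib, mul_add]
    exact Nat.add_le_add (offc_insert_sum A pool β hA C hC D) (offc_insert_sum B pool β hB C hC D)
  calc (∑ q' ∈ C, XX A B (insert q' D)) * ω ^ (D.card + 1)
      ≤ (β * XX A B D) * ω ^ (D.card + 1) := Nat.mul_le_mul_right _ h2
    _ = ω * β * (XX A B D * ω ^ D.card) := by ring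

theorem build (A B pool : Finset ℕ) (β ω t : ℕ) (ht : 0 < t)
    (hA : ∀ p ∈ A.offDiag, (pool.filter (fun q => p.1 ≡ p.2 [MOD q])).card ≤ β)
    (hB : ∀ p ∈ B.offDiag, (pool.filter (fun q => p.1 ≡ p.2 [MOD q])).card ≤ β)
    (Used : Finset ℕ) (hcard : Used.card + t + 2 * β * t * ω ≤ pool.card) :
    ∀ i ≤ t, ∃ G : Finset ℕ, G ⊆ pool ∧ Disjoint G Used ∧ G.card = i ∧
      t * Psi A B ω G ≤ (t + i) * Psi A B ω ∅ := by
  classical
  intro i
  induction i with
  | zero =>
    intro _
    exact ⟨∅, Finset.empty_subset _, Finset.disjoint_empty_left _, rfl, by simp⟩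
  | succ i ih =>
    intro hi
    obtain ⟨G, hGp, hGU, hGc, hGP⟩ := ih (by omega)
    set C := pool \ (Used ∪ G) with hCdef
    have hCcard : 2 * β * t * ω + 1 ≤ C.card := by
      have h1 : pool.card - (Used ∪ G).card ≤ C.card := Finset.le_card_sdiff _ _
      have h2 : (Used ∪ G).card ≤ Used.card + G.card := Finset.card_union_le _ _
      omega
    have hCne : C.Nonempty := Finset.card_pos.mp (by omega)
    obtain ⟨q, hqC, hq⟩ := exists_good A B pool β ω hA hB G C Finset.sdiff_subset hCne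
    have hqm := Finset.mem_sdiff.mp hqC
    have hqG : q ∉ G := fun h => hqm.2 (Finset.mem_union_right _ h)
    have hqU : q ∉ Used := fun h => hqm.2 (Finset.mem_union_left _ h)
    set inc := ∑ D ∈ G.powerset, XX A B (insert q D) * ω ^ (D.card + 1) with hinc
    have h2t : 2 * t * inc ≤ Psi A B ω G := by
      rcases Nat.eq_zero_or_pos (ω * β) with h0 | hpos
      · have : C.card * inc ≤ 0 := by rw [h0, zero_mul] at hq; exact hq
        have hc : 0 < C.card := by omega
        have : inc = 0 := by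
          rcases Nat.eq_zero_or_pos inc with h | h
          · exact h
          · exact absurd (Nat.mul_pos hc h) (by omega)
        rw [this]; simp
      · have h3 : (ω * β) * (2 * t * inc) ≤ (ω * β) * Psi A B ω G := by
          calc (ω * β) * (2 * t * inc) = (2 * β * t * ω) * inc := by ring
            _ ≤ C.card * inc := Nat.mul_le_mul_right _ (by omega)
            _ ≤ ω * β * Psi A B ω G := hq
        exact Nat.le_of_mul_le_mul_left h3 hpos
    have htinc : t * inc ≤ Psi A B ω ∅ := by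
      have h4 : (2 * t) * (t * inc) ≤ (2 * t) * Psi A B ω ∅ := by
        calc (2 * t) * (t * inc) = t * (2 * t * inc) := by ring
          _ ≤ t * Psi A B ω G := Nat.mul_le_mul_left _ h2t
          _ ≤ (t + i) * Psi A B ω ∅ := hGP
          _ ≤ (2 * t) * Psi A B ω ∅ := Nat.mul_le_mul_right _ (by omega)
      exact Nat.le_of_mul_le_mul_left h4 (by omega)
    refine ⟨insert q G, ?_, ?_, ?_, ?_⟩
    · intro x hx
      rcases Finset.mem_insert.mp hx with rfl | hx
      · exact hqm.1
      · exact hGp hx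
    · rw [Finset.disjoint_insert_left]
      exact ⟨hqU, hGU⟩
    · rw [Finset.card_insert_of_notMem hqG, hGc]
    · rw [Psi_insert A B ω G q hqG, ← hinc, mul_add]
      calc t * Psi A B ω G + t * inc ≤ (t + i) * Psi A B ω ∅ + Psi A B ω ∅ :=
            Nat.add_le_add hGP htinc
        _ = (t + (i + 1)) * Psi A B ω ∅ := by ring

theorem select (A B pool : Finset ℕ) (β ω t : ℕ) (ht : 0 < t)
    (hA : ∀ p ∈ A.offDiag, (pool.filter (fun q => p.1 ≡ p.2 [MOD q])).card ≤ β)
    (hB : ∀ p ∈ B.offDiag, (pool.filter (fun q => p.1 ≡ p.2 [MOD q])).card ≤ β) :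
    ∀ g : ℕ, g * t + 2 * β * t * ω ≤ pool.card →
    ∃ L : List (Finset ℕ), ∃ U : Finset ℕ, L.length = g ∧ U ⊆ pool ∧ U.card = g * t ∧
      ∏ q ∈ U, q = (L.map (fun G => ∏ q ∈ G, q)).prod ∧
      (∀ G ∈ L, G ⊆ U ∧ G.card = t ∧ Psi A B ω G ≤ 2 * Psi A B ω ∅) ∧
      L.Pairwise Disjoint := by
  classical
  intro g
  induction g with
  | zero =>
    intro _
    exact ⟨[], ∅, rfl, Finset.empty_subset _, by simp, by simp, by simp, List.Pairwise.nil⟩
  | succ g ih =>
    intro hcard
    obtain ⟨L, U, hL, hUp, hUc, hUprod, hLG, hLd⟩ := ih (by nlinarith)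
    obtain ⟨G, hGp, hGU, hGc, hGP⟩ := build A B pool β ω t ht hA hB U
      (by rw [hUc]; nlinarith) t le_rfl
    refine ⟨G :: L, U ∪ G, by simp [hL], Finset.union_subset hUp hGp, ?_, ?_, ?_, ?_⟩
    · rw [Finset.card_union_of_disjoint hGU.symm, hUc, hGc]; ring
    · rw [Finset.prod_union hGU.symm, hUprod, List.map_cons, List.prod_cons, mul_comm]
    · intro G' hG'
      rcases List.mem_cons.mp hG' with rfl | hG'
      · refine ⟨Finset.subset_union_right, hGc, ?_⟩
        have : t * Psi A B ω G' ≤ t * (2 * Psi A B ω ∅) := by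
          calc t * Psi A B ω G' ≤ (t + t) * Psi A B ω ∅ := hGP
            _ = t * (2 * Psi A B ω ∅) := by ring
        exact Nat.le_of_mul_le_mul_left this ht
      · obtain ⟨h1, h2, h3⟩ := hLG G' hG'
        exact ⟨h1.trans Finset.subset_union_left, h2, h3⟩
    · rw [List.pairwise_cons]
      refine ⟨fun G' hG' => ?_, hLd⟩
      exact Finset.disjoint_of_subset_right (hLG G' hG').1 hGU

end Vale.Agent.Lib.P012
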