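import Vale.Agent.Lib.P012.Level

namespace Vale.Agent.Lib.P012

open Finset

/-- exponent of the size threshold of stage `s` -/
def EE (ρ s : ℕ) : ℕ := 16 * ρ * (2 ^ (s + 1) + 1) + 2
/-- group size at stage `s` -/
def tS (ρ s : ℕ) : ℕ := (4 * (ρ - s) * 2 ^ s - 5) / (48 * ρ + 49)
/-- number of groups at stage `s` -/
def gS (ρ s : ℕ) : ℕ := 2 * (48 * ρ + 49) / (ρ - s) + 1

theorem EE_succ (ρ s : ℕ) : EE ρ (s + 1) = EE ρ s + 16 * ρ * 2 ^ (s + 1) := by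
  unfold EE
  rw [pow_succ 2 (s + 1)]
  ring

theorem stage_M_ge (ρ s : ℕ) (hρ : 16 ≤ ρ) (hs7 : 7 ≤ s) (hsρ : s < ρ) :
    96 * ρ + 106 ≤ 4 * (ρ - s) * 2 ^ s := by
  obtain ⟨v, rfl⟩ := Nat.exists_eq_add_of_le hs7
  obtain ⟨u, rfl⟩ := Nat.exists_eq_add_of_lt hsρ
  have e1 : 7 + v + u + 1 - (7 + v) = u + 1 := by omega
  rw [e1, pow_add]
  have h1 : v + 1 ≤ 2 ^ v := Nat.lt_two_pow_self
  have h2 : (2 : ℕ) ^ 7 = 128 := by norm_num
  rw [h2]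
  have h3 : (u + 1) * (v + 1) ≤ (u + 1) * 2 ^ v := Nat.mul_le_mul_left _ h1
  have h4 : u + v + 1 ≤ (u + 1) * (v + 1) := by nlinarith
  nlinarith

theorem tS_pos (ρ s : ℕ) (hρ : 16 ≤ ρ) (hs7 : 7 ≤ s) (hsρ : s < ρ) : 0 < tS ρ s := by
  unfold tS
  have := stage_M_ge ρ s hρ hs7 hsρ
  apply Nat.div_pos
  · omega
  · omega

theorem tS_mul_le (ρ s : ℕ) : tS ρ s * (48 * ρ + 49) ≤ 4 * (ρ - s) * 2 ^ s - 5 := by
  unfold tS
  exact Nat.div_mul_le_self _ _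

theorem tS_le (ρ s : ℕ) : tS ρ s ≤ 2 ^ s := by
  unfold tS
  apply Nat.div_le_of_le_mul
  have h1 : 4 * (ρ - s) ≤ 48 * ρ + 49 := by omega
  calc 4 * (ρ - s) * 2 ^ s - 5 ≤ 4 * (ρ - s) * 2 ^ s := Nat.sub_le _ _
    _ ≤ (48 * ρ + 49) * 2 ^ s := Nat.mul_le_mul_right _ h1

theorem gS_le (ρ s : ℕ) : gS ρ s ≤ 96 * ρ + 99 := by
  unfold gS
  have : 2 * (48 * ρ + 49) / (ρ - s) ≤ 2 * (48 * ρ + 49) := Nat.div_le_self _ _
  omega

theorem gS_tS_le (ρ s : ℕ) : gS ρ s * tS ρ s ≤ (96 * ρ + 99) * 2 ^ s :=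
  Nat.mul_le_mul (gS_le ρ s) (tS_le ρ s)

/-- (C1) at stage `s` -/
theorem c_one_stage (ρ s : ℕ) (hρ : 16 ≤ ρ) (hs7 : 7 ≤ s) (hsρ : s < ρ) :
    2 ^ (tS ρ s + 5) * (2 ^ (16 * (ρ + 1))) ^ (3 * tS ρ s) ≤ ((2 ^ (ρ - s)) ^ (2 ^ s)) ^ 4 := by
  rw [← pow_mul, ← pow_mul, ← pow_mul, ← pow_add]
  apply Nat.pow_le_pow_right (by norm_num)
  have h1 := tS_mul_le ρ s
  have h2 := stage_M_ge ρ s hρ hs7 hsρ
  have h3 : tS ρ s + 5 + 16 * (ρ + 1) * (3 * tS ρ s) = tS ρ s * (48 * ρ + 49) + 5 := by ring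
  have h4 : (ρ - s) * (2 ^ s * 4) = 4 * (ρ - s) * 2 ^ s := by ring
  rw [h3, h4]
  generalize tS ρ s * (48 * ρ + 49) = a at h1 ⊢
  generalize 4 * (ρ - s) * 2 ^ s = M at h1 h2 ⊢
  omega

/-- the groups of stage `s` supply enough bits -/
theorem stage_gain (ρ s : ℕ) (hρ : 16 ≤ ρ) (hs7 : 7 ≤ s) (hsρ : s < ρ) :
    16 * ρ * 2 ^ (s + 1) ≤ 8 * (ρ + 1) * (gS ρ s * tS ρ s) := by
  have hM := stage_M_ge ρ s hρ hs7 hsρ
  set D := 48 * ρ + 49 with hD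
  set u := ρ - s with hu
  set M := 4 * u * 2 ^ s with hMdef
  have hupos : 0 < u := by omega
  have hDpos : 0 < D := by omega
  -- t * D + D + 4 ≥ M
  have ha : M ≤ tS ρ s * D + D + 4 := by
    have h1 : M - 5 < D * ((M - 5) / D + 1) := Nat.lt_mul_div_succ (M - 5) hDpos
    have h2 : tS ρ s = (M - 5) / D := rfl
    rw [← h2] at h1
    have h3 : D * (tS ρ s + 1) = tS ρ s * D + D := by ring
    omega
  -- g * u ≥ 2 D + 1
  have hb : 2 * D + 1 ≤ gS ρ s * u := by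
    have h1 : 2 * D < u * (2 * D / u + 1) := Nat.lt_mul_div_succ (2 * D) hupos
    have h2 : gS ρ s = 2 * D / u + 1 := rfl
    rw [← h2] at h1
    have h3 : u * gS ρ s = gS ρ s * u := mul_comm _ _
    omega
  have hc : M ≤ 2 * (tS ρ s * D) := by omega
  -- compare after multiplying by D * u
  have key : (16 * ρ * 2 ^ (s + 1)) * (D * u) ≤ (8 * (ρ + 1) * (gS ρ s * tS ρ s)) * (D * u) := by
    have e1 : (16 * ρ * 2 ^ (s + 1)) * (D * u) = 8 * ρ * D * M := by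
      rw [hMdef, pow_succ]; ring
    have e2 : (8 * (ρ + 1) * (gS ρ s * tS ρ s)) * (D * u)
        = 8 * (ρ + 1) * (tS ρ s * D) * (gS ρ s * u) := by ring
    rw [e1, e2]
    calc 8 * ρ * D * M ≤ 8 * (ρ + 1) * D * M :=
          Nat.mul_le_mul_right _ (Nat.mul_le_mul_right _ (by omega))
      _ ≤ 8 * (ρ + 1) * D * (2 * (tS ρ s * D)) := Nat.mul_le_mul_left _ hc
      _ = 8 * (ρ + 1) * (tS ρ s * D) * (2 * D) := by ring
      _ ≤ 8 * (ρ + 1) * (tS ρ s * D) * (gS ρ s * u) := Nat.mul_le_mul_left _ (by omega)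
  exact Nat.le_of_mul_le_mul_right key (Nat.mul_pos hDpos hupos)

theorem pool_big (ρ : ℕ) (hρ : 16 ≤ ρ) :
    2 ^ (15 * ρ + 10) ≤ (Nat.primesLE (2 ^ (16 * (ρ + 1)))).card := by
  have h1 := primes_count (16 * (ρ + 1))
  by_contra hcon
  push Not at hcon
  have e7 : 16 * (ρ + 1) ≤ 2 ^ (ρ + 5) := by
    have : ρ + 1 ≤ 2 ^ (ρ + 1) := Nat.lt_two_pow_self.le
    calc 16 * (ρ + 1) ≤ 2 ^ 4 * 2 ^ (ρ + 1) := by omega
      _ = 2 ^ (ρ + 5) := by rw [← pow_add]; exact congrArg (fun k => 2 ^ k) (by omega)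
  have e8 : 16 * (ρ + 1) * ((Nat.primesLE (2 ^ (16 * (ρ + 1)))).card + 1)
      ≤ 2 ^ (ρ + 5) * 2 ^ (15 * ρ + 10) := Nat.mul_le_mul e7 (by omega)
  have e9 : 2 ^ (ρ + 5) * 2 ^ (15 * ρ + 10) = 2 ^ (16 * ρ + 15) := by
    rw [← pow_add]; exact congrArg (fun k => 2 ^ k) (by omega)
  have e10 : 2 ^ (16 * ρ + 15 + 1) = 2 ^ (16 * (ρ + 1)) :=
    congrArg (fun k => 2 ^ k) (by omega)
  have e11 : 2 ^ 1 ≤ 2 ^ (16 * ρ + 15) := Nat.pow_le_pow_right (by norm_num) (by omega)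
  rw [pow_succ] at e10
  have e12 : 16 * (ρ + 1) * ((Nat.primesLE (2 ^ (16 * (ρ + 1)))).card + 1)
      = 16 * (ρ + 1) * (Nat.primesLE (2 ^ (16 * (ρ + 1)))).card + 16 * (ρ + 1) := by ring
  omega

theorem pool_card_stage (ρ N s : ℕ) (hρ : 16 ≤ ρ) (hsρ : s < ρ)
    (hN : N.primeFactors.card ≤ 2 ^ (2 * ρ + 3)) :
    gS ρ s * tS ρ s + 2 * 2 ^ (s + 1) * tS ρ s * 2 ^ (12 * (ρ + 1) + 4) ≤ (pool ρ N).card := by
  classical
  have h2 := pool_big ρ hρ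
  set PL := Nat.primesLE (2 ^ (16 * (ρ + 1))) with hPL
  set c := 2 ^ (8 * (ρ + 1)) with hc
  have h3 : PL.card ≤ (PL.filter (fun q => c < q)).card + c := by
    have h4 : (PL.filter (fun q => ¬ c < q)).card ≤ c := by
      have hsub : PL.filter (fun q => ¬ c < q) ⊆ Finset.Icc 1 c := by
        intro q hq
        rw [Finset.mem_filter, hPL, Nat.mem_primesLE] at hq
        rw [Finset.mem_Icc]
        exact ⟨hq.1.2.one_lt.le, by omega⟩
      calc (PL.filter (fun q => ¬ c < q)).card ≤ (Finset.Icc 1 c).card := Finset.card_le_card hsub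
        _ = c := by simp
    have h5 := Finset.card_filter_add_card_filter_not (s := PL) (fun q => c < q)
    omega
  have h6 : (PL.filter (fun q => c < q)).card - N.primeFactors.card ≤ (pool ρ N).card := by
    unfold pool
    exact Finset.le_card_sdiff _ _
  have h7 := gS_tS_le ρ s
  have h8 := tS_le ρ s
  have hs2 : (2 : ℕ) ^ s ≤ 2 ^ ρ := Nat.pow_le_pow_right (by norm_num) hsρ.le
  have h9 : 96 * ρ + 99 ≤ 2 ^ ρ := by
    have := lin_le_pow ρ hρ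
    have h' : 2 ^ ρ = 4 * 2 ^ (ρ - 2) := by
      have : ρ = (ρ - 2) + 2 := by omega
      nth_rewrite 1 [this]
      rw [pow_add]; ring
    omega
  have h10 : gS ρ s * tS ρ s ≤ 2 ^ (2 * ρ) := by
    calc gS ρ s * tS ρ s ≤ (96 * ρ + 99) * 2 ^ s := h7
      _ ≤ 2 ^ ρ * 2 ^ ρ := Nat.mul_le_mul h9 hs2
      _ = 2 ^ (2 * ρ) := by rw [← pow_add]; exact congrArg (fun k => 2 ^ k) (by omega)
  have h11 : 2 * 2 ^ (s + 1) * tS ρ s * 2 ^ (12 * (ρ + 1) + 4) ≤ 2 ^ (14 * ρ + 18) := by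
    calc 2 * 2 ^ (s + 1) * tS ρ s * 2 ^ (12 * (ρ + 1) + 4)
        ≤ 2 * 2 ^ (ρ + 1) * 2 ^ ρ * 2 ^ (12 * (ρ + 1) + 4) := by
          apply Nat.mul_le_mul_right
          apply Nat.mul_le_mul
          · exact Nat.mul_le_mul_left _ (Nat.pow_le_pow_right (by norm_num) (by omega))
          · exact h8.trans hs2
      _ = 2 ^ (14 * ρ + 18) := by
          have : 14 * ρ + 18 = 1 + (ρ + 1) + ρ + (12 * (ρ + 1) + 4) := by ring
          rw [this, pow_add, pow_add, pow_add]; ring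
  have p1 : (2 : ℕ) ^ (8 * (ρ + 1)) ≤ 2 ^ (14 * ρ + 18) :=
    Nat.pow_le_pow_right (by norm_num) (by omega)
  have p2 : (2 : ℕ) ^ (2 * ρ + 3) ≤ 2 ^ (14 * ρ + 18) :=
    Nat.pow_le_pow_right (by norm_num) (by omega)
  have p3 : (2 : ℕ) ^ (2 * ρ) ≤ 2 ^ (14 * ρ + 18) :=
    Nat.pow_le_pow_right (by norm_num) (by omega)
  have p4 : 4 * (2 : ℕ) ^ (14 * ρ + 18) = 2 ^ (14 * ρ + 20) := by
    rw [show 14 * ρ + 20 = (14 * ρ + 18) + 2 by ring, pow_add]; ring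
  have p5 : (2 : ℕ) ^ (14 * ρ + 20) ≤ 2 ^ (15 * ρ + 10) :=
    Nat.pow_le_pow_right (by norm_num) (by omega)
  omega

/-- dyadic harmonic bound -/
theorem harmonic_pow (K : ℕ) : ∀ L : ℕ, ∑ j ∈ range (2 ^ L - 1), K / (j + 1) ≤ K * L := by
  intro L
  induction L with
  | zero => simp
  | succ L ih =>
    have h1 : 2 ^ (L + 1) - 1 = (2 ^ L - 1) + 2 ^ L := by
      have : 0 < 2 ^ L := by positivity
      rw [pow_succ]; omega
    rw [h1, Finset.sum_range_add]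
    have h2 : ∑ x ∈ range (2 ^ L), K / (2 ^ L - 1 + x + 1) ≤ ∑ _x ∈ range (2 ^ L), K / 2 ^ L := by
      refine Finset.sum_le_sum fun x _ => ?_
      apply Nat.div_le_div_left
      · have : 0 < 2 ^ L := by positivity
        omega
      · positivity
    rw [Finset.sum_const, Finset.card_range, smul_eq_mul] at h2
    have h3 : 2 ^ L * (K / 2 ^ L) ≤ K := Nat.mul_div_le K (2 ^ L)
    have h4 : K * (L + 1) = K * L + K := by ring
    omega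

theorem harmonic_le (K n : ℕ) : ∑ j ∈ range n, K / (j + 1) ≤ K * (Nat.log 2 n + 1) := by
  have h1 : n < 2 ^ (Nat.log 2 n + 1) := Nat.lt_pow_succ_log_self (by norm_num) n
  have h2 : range n ⊆ range (2 ^ (Nat.log 2 n + 1) - 1) := by
    intro x hx
    rw [Finset.mem_range] at hx ⊢
    omega
  exact le_trans (Finset.sum_le_sum_of_subset h2) (harmonic_pow K _)

/-- total number of groups over the stages `7, ..., ρ - 1` -/
theorem sum_gS_le (ρ : ℕ) (hρ : 16 ≤ ρ) :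
    ∑ i ∈ range (ρ - 7), gS ρ (7 + i) ≤ 2 * (48 * ρ + 49) * (Nat.log 2 ρ + 1) + ρ := by
  set n := ρ - 7 with hn
  have h1 : ∑ i ∈ range n, gS ρ (7 + i)
      = ∑ i ∈ range n, (2 * (48 * ρ + 49) / ((n - 1 - i) + 1) + 1) := by
    refine Finset.sum_congr rfl fun i hi => ?_
    have := Finset.mem_range.mp hi
    unfold gS
    have : ρ - (7 + i) = n - 1 - i + 1 := by omega
    rw [this]
  rw [h1, Finset.sum_range_reflect (fun j => 2 * (48 * ρ + 49) / (j + 1) + 1) n,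
    Finset.sum_add_distrib, Finset.sum_const, Finset.card_range, smul_eq_mul, mul_one]
  have h2 := harmonic_le (2 * (48 * ρ + 49)) n
  have h3 : Nat.log 2 n ≤ Nat.log 2 ρ := Nat.log_mono_right (by omega)
  have h4 : 2 * (48 * ρ + 49) * (Nat.log 2 n + 1) ≤ 2 * (48 * ρ + 49) * (Nat.log 2 ρ + 1) :=
    Nat.mul_le_mul_left _ (by omega)
  omega

end Vale.Agent.Lib.P012
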