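import Vale.Agent.Lib.P012.Level

namespace Vale.Agent.Lib.P012

open Finset

/-- a finite set of card `m * c` splits into `m` pairwise disjoint blocks of card `c` -/
theorem exists_blocks (c : ℕ) : ∀ (m : ℕ) (S : Finset ℕ), S.card = m * c →
    ∃ Bl : Fin m → Finset ℕ, (∀ j, Bl j ⊆ S) ∧ (∀ j, (Bl j).card = c) ∧
      Pairwise (fun i j => Disjoint (Bl i) (Bl j)) := by
  classical
  intro m
  induction m with
  | zero =>
    intro S _
    exact ⟨fun j => j.elim0, fun j => j.elim0, fun j => j.elim0, fun i => i.elim0⟩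
  | succ m ih =>
    intro S hS
    obtain ⟨T, hTS, hTc⟩ := Finset.exists_subset_card_eq (s := S) (n := c) (by
      rw [hS]; exact Nat.le_mul_of_pos_left c (Nat.succ_pos m))
    have hS' : (S \ T).card = m * c := by
      rw [Finset.card_sdiff_of_subset hTS, hS, hTc, Nat.succ_mul, Nat.add_sub_cancel]
    obtain ⟨Bl, h1, h2, h3⟩ := ih (S \ T) hS'
    refine ⟨Fin.cons T Bl, ?_, ?_, ?_⟩
    · intro j
      refine Fin.cases ?_ (fun i => ?_) j
      · simpa using hTS
      · simpa using (h1 i).trans Finset.sdiff_subset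
    · intro j
      refine Fin.cases ?_ (fun i => ?_) j
      · simpa using hTc
      · simpa using h2 i
    · intro i j hij
      have hd : ∀ k : Fin m, Disjoint T (Bl k) := by
        intro k
        rw [Finset.disjoint_left]
        intro x hxT hxk
        exact (Finset.mem_sdiff.mp (h1 k hxk)).2 hxT
      revert hij
      refine Fin.cases ?_ (fun i' => ?_) i
      · refine Fin.cases ?_ (fun j' => ?_) j
        · intro h; exact absurd rfl h
        · intro _; simpa using hd j'
      · refine Fin.cases ?_ (fun j' => ?_) j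
        · intro _; simpa using (hd i').symm
        · intro h
          have : i' ≠ j' := fun e => h (by rw [e])
          simpa using h3 this

/-- products of one element from each block -/
def transv {m : ℕ} (Bl : Fin m → Finset ℕ) : Finset ℕ :=
  (Fintype.piFinset Bl).image (fun f => ∏ j, f j)

section
variable {m : ℕ} (Bl : Fin m → Finset ℕ)
  (hdisj : Pairwise (fun i j => Disjoint (Bl i) (Bl j)))

include hdisj in
theorem transv_inj_aux (f : Fin m → ℕ) (hf : ∀ j, f j ∈ Bl j) : Function.Injective f := by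
  intro i j hij
  by_contra hne
  have := Finset.disjoint_left.mp (hdisj hne) (hf i)
  exact this (hij ▸ hf j)

include hdisj in
theorem transv_eq_prod_image (f : Fin m → ℕ) (hf : ∀ j, f j ∈ Bl j) :
    ∏ j, f j = ∏ p ∈ Finset.univ.image f, p := by
  classical
  rw [Finset.prod_image (fun i _ j _ h => transv_inj_aux Bl hdisj f hf h)]

include hdisj in
theorem transv_sub (P : Finset ℕ) (hP : ∀ j, Bl j ⊆ P) : transv Bl ⊆ subprods P := by
  classical
  intro a ha
  unfold transv at ha
  obtain ⟨f, hf, rfl⟩ := Finset.mem_image.mp ha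
  rw [Fintype.mem_piFinset] at hf
  unfold subprods
  rw [Finset.mem_image]
  refine ⟨Finset.univ.image f, ?_, (transv_eq_prod_image Bl hdisj f hf).symm⟩
  rw [Finset.mem_powerset]
  intro p hp
  obtain ⟨j, _, rfl⟩ := Finset.mem_image.mp hp
  exact hP j (hf j)

include hdisj in
theorem transv_card (c : ℕ) (hc : ∀ j, (Bl j).card = c) (hprime : ∀ j, ∀ p ∈ Bl j, p.Prime) :
    (transv Bl).card = c ^ m := by
  classical
  unfold transv
  rw [Finset.card_image_of_injOn, Fintype.card_piFinset]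
  · simp [hc]
  · intro f hf g hg hfg
    have hf' : ∀ j, f j ∈ Bl j := by
      have := hf
      simp only [Finset.mem_coe, Fintype.mem_piFinset] at this
      exact this
    have hg' : ∀ j, g j ∈ Bl j := by
      have := hg
      simp only [Finset.mem_coe, Fintype.mem_piFinset] at this
      exact this
    have hfg' : ∏ j, f j = ∏ j, g j := hfg
    rw [transv_eq_prod_image Bl hdisj f hf', transv_eq_prod_image Bl hdisj g hg'] at hfg'
    have e1 := Nat.primeFactors_prod (s := Finset.univ.image f) (by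
      intro p hp
      obtain ⟨j, _, rfl⟩ := Finset.mem_image.mp hp
      exact hprime j _ (hf' j))
    have e2 := Nat.primeFactors_prod (s := Finset.univ.image g) (by
      intro p hp
      obtain ⟨j, _, rfl⟩ := Finset.mem_image.mp hp
      exact hprime j _ (hg' j))
    rw [hfg'] at e1
    have himg : Finset.univ.image f = Finset.univ.image g := e1.symm.trans e2
    funext j
    have hmem : f j ∈ Finset.univ.image g := by
      rw [← himg]; exact Finset.mem_image_of_mem f (Finset.mem_univ j)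
    obtain ⟨i, _, hi⟩ := Finset.mem_image.mp hmem
    by_cases hij : i = j
    · rw [← hi, hij]
    · exfalso
      have := Finset.disjoint_left.mp (hdisj hij) (hg' i)
      exact this (hi ▸ hf' j)

theorem transv_le (U : ℕ) (hU : ∀ j, ∀ p ∈ Bl j, p ≤ U) : ∀ a ∈ transv Bl, a ≤ U ^ m := by
  classical
  intro a ha
  unfold transv at ha
  obtain ⟨f, hf, rfl⟩ := Finset.mem_image.mp ha
  rw [Fintype.mem_piFinset] at hf
  have := Finset.prod_le_pow_card Finset.univ f U (fun j _ => hU j _ (hf j))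
  simpa using this

end

theorem beta_bound_gen (A pool : Finset ℕ) (c β M : ℕ) (hA : ∀ a ∈ A, a ≤ M)
    (hpool : ∀ q ∈ pool, q.Prime ∧ c < q) (hMc : M ≤ c ^ β) (hc : 0 < c) :
    ∀ p ∈ A.offDiag, (pool.filter (fun q => p.1 ≡ p.2 [MOD q])).card ≤ β := by
  intro p hp
  rw [Finset.mem_offDiag] at hp
  obtain ⟨h1, h2, hne⟩ := hp
  have hx : p.1 ≤ M := hA _ h1
  have hy : p.2 ≤ M := hA _ h2
  set F := pool.filter (fun q => p.1 ≡ p.2 [MOD q]) with hF
  have hdvd : ∏ q ∈ F, q ∣ ((p.2 : ℤ) - p.1).natAbs := by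
    apply Finset.prod_primes_dvd
    · intro q hq
      exact (hpool q (Finset.mem_filter.mp hq).1).1.prime
    · intro q hq
      exact (modEq_iff_dvd_natAbs q p.1 p.2).mp (Finset.mem_filter.mp hq).2
  have hpos : 0 < ((p.2 : ℤ) - p.1).natAbs := by
    rw [Int.natAbs_pos]
    intro h
    apply hne
    have : (p.2 : ℤ) = p.1 := by linarith
    exact_mod_cast this.symm
  have hle : ((p.2 : ℤ) - p.1).natAbs ≤ M := by omega
  have h3 : (c + 1) ^ F.card ≤ ∏ q ∈ F, q :=
    Finset.pow_card_le_prod F _ (c + 1) fun q hq => (hpool q (Finset.mem_filter.mp hq).1).2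
  have h4 : (c + 1) ^ F.card ≤ (c + 1) ^ β := by
    calc (c + 1) ^ F.card ≤ ∏ q ∈ F, q := h3
      _ ≤ ((p.2 : ℤ) - p.1).natAbs := Nat.le_of_dvd hpos hdvd
      _ ≤ M := hle
      _ ≤ c ^ β := hMc
      _ ≤ (c + 1) ^ β := Nat.pow_le_pow_left (Nat.le_succ c) β
  by_contra hcon
  push Not at hcon
  have h5 : (c + 1) ^ β < (c + 1) ^ F.card :=
    Nat.pow_lt_pow_right (by omega) hcon
  omega

/-- covering by four bounded divisors, for general sets of subset products -/
theorem group_cover_gen (S W PA PB G A B : Finset ℕ) (hS : ∀ p ∈ S, p.Prime)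
    (hW : W ⊆ S) (hWc : W.card = 4) (hPA : PA ⊆ S) (hPB : PB ⊆ S)
    (hWA : Disjoint W PA) (hWB : Disjoint W PB) (hAB : Disjoint PA PB)
    (hA : A ⊆ subprods PA) (hB : B ⊆ subprods PB)
    (Wm Am Bm : ℕ) (hWm : ∀ p ∈ W, p ≤ Wm) (hAm : ∀ a ∈ A, a ≤ Am) (hBm : ∀ b ∈ B, b ≤ Bm)
    (hG : ∀ q ∈ G, q.Prime) (hGS : ∀ q ∈ G, q ∉ S)
    (hsum : ∑ D ∈ G.powerset.erase ∅,
        (∏ q ∈ D, q) ^ 3 * (coll A D) ^ 2 * (coll B D) ^ 2
      < A.card ^ 4 * B.card ^ 4) (x : ℕ) :
    ∃ T : Finset ℕ, (∀ t ∈ T, t ∣ ∏ p ∈ S, p ∧ t ≤ Wm * Am * Bm) ∧ T.card ≤ 4 ∧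
      (∑ t ∈ T, t) ≡ x [MOD ∏ q ∈ G, q] := by
  classical
  set w : Fin 4 → ℕ := fun i => W.orderEmbOfFin hWc i with hwdef
  have hwW : ∀ i, w i ∈ W := fun i => Finset.orderEmbOfFin_mem W hWc i
  have hwp : ∀ i, (w i).Prime := fun i => hS _ (hW (hwW i))
  have hw : ∀ i, ∀ q ∈ G, ¬ q ∣ w i := by
    intro i q hq hdvd
    have : q = w i := (Nat.prime_dvd_prime_iff_eq (hG q hq) (hwp i)).mp hdvd
    exact hGS q hq (this ▸ hW (hwW i))
  obtain ⟨a, b, ha, hb, hab⟩ := cover G hG A B w hw hsum x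
  have haT : ∀ i, ∃ T1 ⊆ PA, a i = ∏ p ∈ T1, p := by
    intro i
    have := hA (ha i)
    unfold subprods at this
    obtain ⟨T1, hT1, e⟩ := Finset.mem_image.mp this
    exact ⟨T1, Finset.mem_powerset.mp hT1, e.symm⟩
  have hbT : ∀ i, ∃ T2 ⊆ PB, b i = ∏ p ∈ T2, p := by
    intro i
    have := hB (hb i)
    unfold subprods at this
    obtain ⟨T2, hT2, e⟩ := Finset.mem_image.mp this
    exact ⟨T2, Finset.mem_powerset.mp hT2, e.symm⟩
  have hinj : Function.Injective (fun i => w i * a i * b i) := by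
    intro i j hij
    have hij' : w i * a i * b i = w j * a j * b j := hij
    have h1 : w i ∣ w j * a j * b j := by
      rw [← hij', mul_assoc]; exact dvd_mul_right _ _
    rcases (Nat.Prime.dvd_mul (hwp i)).mp h1 with h2 | h2
    · rcases (Nat.Prime.dvd_mul (hwp i)).mp h2 with h3 | h3
      · have h4 : w i = w j := (Nat.prime_dvd_prime_iff_eq (hwp i) (hwp j)).mp h3
        exact (W.orderEmbOfFin hWc).injective h4
      · obtain ⟨T1, hT1, e⟩ := haT j
        rw [e] at h3
        have h5 := prime_mem_of_dvd_prod T1 (fun p hp => hS p (hPA (hT1 hp))) _ (hwp i) h3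
        exact absurd (hT1 h5) (Finset.disjoint_left.mp hWA (hwW i))
    · obtain ⟨T2, hT2, e⟩ := hbT j
      rw [e] at h2
      have h5 := prime_mem_of_dvd_prod T2 (fun p hp => hS p (hPB (hT2 hp))) _ (hwp i) h2
      exact absurd (hT2 h5) (Finset.disjoint_left.mp hWB (hwW i))
  have hprod : (∏ p ∈ W, p) * ((∏ p ∈ PA, p) * (∏ p ∈ PB, p)) ∣ ∏ p ∈ S, p := by
    rw [← Finset.prod_union hAB, ← Finset.prod_union (Finset.disjoint_union_right.mpr ⟨hWA, hWB⟩)]
    exact Finset.prod_dvd_prod_of_subset _ _ _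
      (Finset.union_subset hW (Finset.union_subset hPA hPB))
  refine ⟨Finset.univ.image (fun i => w i * a i * b i), ?_, ?_, ?_⟩
  · intro t ht
    obtain ⟨i, _, rfl⟩ := Finset.mem_image.mp ht
    refine ⟨dvd_trans ?_ hprod, ?_⟩
    · rw [mul_assoc]
      exact mul_dvd_mul (Finset.dvd_prod_of_mem _ (hwW i))
        (mul_dvd_mul (subprods_dvd PA _ (hA (ha i))) (subprods_dvd PB _ (hB (hb i))))
    · exact Nat.mul_le_mul (Nat.mul_le_mul (hWm _ (hwW i)) (hAm _ (ha i))) (hBm _ (hb i))
  · exact le_trans Finset.card_image_le (by simp)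
  · rw [Finset.sum_image (fun i _ j _ h => hinj h)]
    exact hab

end Vale.Agent.Lib.P012
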