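import Vale.Agent.Lib.P012.Below
import Vale.Agent.Lib.P012.Trans
import Vale.Agent.Lib.P012.StageParams

namespace Vale.Agent.Lib.P012

open Finset

theorem stage_step (ρ s : ℕ) (hρ : 16 ≤ ρ) (hs7 : 7 ≤ s) (hsρ : s < ρ)
    (S W PA PB : Finset ℕ) (hSp : ∀ p ∈ S, p.Prime) (hSle : ∀ p ∈ S, p ≤ 2 ^ (16 * ρ))
    (hWS : W ⊆ S) (hWc : W.card = 4) (hPA_S : PA ⊆ S) (hPB_S : PB ⊆ S)
    (hPAc : PA.card = 2 ^ ρ) (hPBc : PB.card = 2 ^ ρ)
    (hWA : Disjoint W PA) (hWB : Disjoint W PB) (hAB : Disjoint PA PB)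
    (X N F : ℕ) (h : GoodBelow X N F) (hSN : (∏ p ∈ S, p) ∣ N) (hNpos : 0 < N)
    (hX : 2 ^ EE ρ s ≤ X) (hpf : N.primeFactors.card ≤ 2 ^ (2 * ρ + 3)) :
    ∃ Q : ℕ, GoodBelow (Q * X) (Q * N) (F + 4 * gS ρ s) ∧ 2 ^ (16 * ρ * 2 ^ (s + 1)) ≤ Q ∧
      (Q * N).primeFactors.card ≤ N.primeFactors.card + (96 * ρ + 99) * 2 ^ s := by
  classical
  have hcardeq : (2 : ℕ) ^ ρ = 2 ^ s * 2 ^ (ρ - s) := by
    rw [← pow_add]; exact congrArg (fun k => 2 ^ k) (by omega)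
  obtain ⟨BlA, hBlAsub, hBlAc, hBlAdisj⟩ := exists_blocks (2 ^ (ρ - s)) (2 ^ s) PA
    (by rw [hPAc, hcardeq])
  obtain ⟨BlB, hBlBsub, hBlBc, hBlBdisj⟩ := exists_blocks (2 ^ (ρ - s)) (2 ^ s) PB
    (by rw [hPBc, hcardeq])
  set A := transv BlA with hAdef
  set B := transv BlB with hBdef
  set n := (2 ^ (ρ - s)) ^ (2 ^ s) with hn
  set ω := 2 ^ (12 * (ρ + 1) + 4) with hω
  set Am := (2 ^ (16 * ρ)) ^ (2 ^ s) with hAm
  have hnpos : 0 < n := by positivity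
  have hAc : A.card = n :=
    transv_card BlA hBlAdisj _ hBlAc (fun j p hp => hSp p (hPA_S (hBlAsub j hp)))
  have hBc : B.card = n :=
    transv_card BlB hBlBdisj _ hBlBc (fun j p hp => hSp p (hPB_S (hBlBsub j hp)))
  have hAsub : A ⊆ subprods PA := transv_sub BlA hBlAdisj PA hBlAsub
  have hBsub : B ⊆ subprods PB := transv_sub BlB hBlBdisj PB hBlBsub
  have hAle : ∀ a ∈ A, a ≤ Am :=
    transv_le BlA _ (fun j p hp => hSle p (hPA_S (hBlAsub j hp)))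
  have hBle : ∀ b ∈ B, b ≤ Am :=
    transv_le BlB _ (fun j p hp => hSle p (hPB_S (hBlBsub j hp)))
  have hMc : Am ≤ (2 ^ (8 * (ρ + 1))) ^ (2 ^ (s + 1)) := by
    rw [hAm, ← pow_mul, ← pow_mul]
    apply Nat.pow_le_pow_right (by norm_num)
    have : 8 * (ρ + 1) * 2 ^ (s + 1) = 16 * (ρ + 1) * 2 ^ s := by rw [pow_succ]; ring
    rw [this]
    exact Nat.mul_le_mul_right _ (by omega)
  have hpoolp : ∀ q ∈ pool ρ N, q.Prime ∧ 2 ^ (8 * (ρ + 1)) < q :=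
    fun q hq => ⟨(mem_pool hq).1, (mem_pool hq).2.1⟩
  have hbA := beta_bound_gen A (pool ρ N) (2 ^ (8 * (ρ + 1))) (2 ^ (s + 1)) Am hAle hpoolp hMc
    (by positivity)
  have hbB := beta_bound_gen B (pool ρ N) (2 ^ (8 * (ρ + 1))) (2 ^ (s + 1)) Am hBle hpoolp hMc
    (by positivity)
  have htpos := tS_pos ρ s hρ hs7 hsρ
  obtain ⟨L, U, hLlen, hUpool, hUc, hUprod, hLG, hLd⟩ :=
    select A B (pool ρ N) (2 ^ (s + 1)) ω (tS ρ s) htpos hbA hbB (gS ρ s)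
      (pool_card_stage ρ N s hρ hsρ hpf)
  have hPsi0 : Psi A B ω ∅ ≤ 2 * n ^ 2 := by
    unfold Psi
    rw [Finset.powerset_empty, Finset.sum_singleton, Finset.card_empty, pow_zero, mul_one]
    unfold XX offc
    have h1 : (A.offDiag.filter (fun p : ℕ × ℕ => ∀ q ∈ (∅ : Finset ℕ), p.1 ≡ p.2 [MOD q])).card
        ≤ n ^ 2 := by
      refine le_trans (Finset.card_filter_le _ _) ?_
      rw [Finset.offDiag_card, hAc, sq]
      exact Nat.sub_le _ _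
    have h2 : (B.offDiag.filter (fun p : ℕ × ℕ => ∀ q ∈ (∅ : Finset ℕ), p.1 ≡ p.2 [MOD q])).card
        ≤ n ^ 2 := by
      refine le_trans (Finset.card_filter_le _ _) ?_
      rw [Finset.offDiag_card, hBc, sq]
      exact Nat.sub_le _ _
    omega
  have hUprime : ∀ q ∈ U, q.Prime := fun q hq => (mem_pool (hUpool hq)).1
  have hUS : ∀ q ∈ U, q ∉ S := by
    intro q hq hqS
    apply (mem_pool (hUpool hq)).2.2.2
    rw [Nat.mem_primeFactors]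
    exact ⟨hUprime q hq, dvd_trans (Finset.dvd_prod_of_mem _ hqS) hSN, hNpos.ne'⟩
  have hUN : ∀ q ∈ U, ¬ q ∣ N := by
    intro q hq hdvd
    apply (mem_pool (hUpool hq)).2.2.2
    rw [Nat.mem_primeFactors]
    exact ⟨hUprime q hq, hdvd, hNpos.ne'⟩
  set Bd := 2 ^ (16 * ρ) * Am * Am with hBd
  have hBdX : 4 * Bd ≤ X := by
    refine le_trans (le_of_eq ?_) hX
    rw [hBd, hAm]
    unfold EE
    rw [← pow_mul, mul_assoc, ← pow_add, ← pow_add, show (4 : ℕ) = 2 ^ 2 by norm_num, ← pow_add]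
    refine congrArg (fun k => 2 ^ k) ?_
    rw [pow_succ]
    ring
  have hQs : ∀ Q ∈ L.map (fun G => ∏ q ∈ G, q), 1 < Q ∧ Nat.Coprime Q N ∧ ∀ x : ℕ,
      ∃ T : Finset ℕ, (∀ t ∈ T, t ∣ N ∧ t ≤ Bd) ∧ T.card ≤ 4 ∧ (∑ t ∈ T, t) ≡ x [MOD Q] := by
    intro Q hQ
    obtain ⟨G, hGL, rfl⟩ := List.mem_map.mp hQ
    obtain ⟨hGU, hGc, hGPsi⟩ := hLG G hGL
    have hGprime : ∀ q ∈ G, q.Prime := fun q hq => hUprime q (hGU hq)
    refine ⟨?_, ?_, ?_⟩
    · have h1 : 2 ^ G.card ≤ ∏ q ∈ G, q :=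
        Finset.pow_card_le_prod G _ 2 fun q hq => (hGprime q hq).two_le
      have h2 : 2 ^ 1 ≤ 2 ^ G.card := Nat.pow_le_pow_right (by norm_num) (by
        rw [hGc]; exact htpos)
      omega
    · exact Nat.Coprime.prod_left fun q hq =>
        (Nat.Prime.coprime_iff_not_dvd (hGprime q hq)).mpr (hUN q (hGU hq))
    · intro x
      have hsum := verify A B G n (2 ^ (16 * (ρ + 1))) ω (tS ρ s) hAc hBc hnpos
        (Nat.one_le_two_pow) (fun q hq => (mem_pool (hUpool (hGU hq))).2.2.1) hGc.le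
        (by omega) (c_one_stage ρ s hρ hs7 hsρ) (c_two ρ)
      obtain ⟨T, t1, t2, t3⟩ := group_cover_gen S W PA PB G A B hSp hWS hWc hPA_S hPB_S
        hWA hWB hAB hAsub hBsub (2 ^ (16 * ρ)) Am Am (fun p hp => hSle p (hWS hp)) hAle hBle
        hGprime (fun q hq => hUS q (hGU hq)) hsum x
      exact ⟨T, fun t ht => ⟨dvd_trans (t1 t ht).1 hSN, (t1 t ht).2⟩, t2, t3⟩
  have hpw : (L.map (fun G => ∏ q ∈ G, q)).Pairwise Nat.Coprime := by
    rw [List.pairwise_map]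
    refine hLd.imp_of_mem ?_
    intro G1 G2 h1 h2 hdisj
    refine Nat.Coprime.prod_left fun p hp => Nat.Coprime.prod_right fun q hq => ?_
    rw [Nat.coprime_primes (hUprime p ((hLG G1 h1).1 hp)) (hUprime q ((hLG G2 h2).1 hq))]
    intro hpq
    exact Finset.disjoint_left.mp hdisj hp (hpq ▸ hq)
  have hgood := tower_below_list h hBdX (L.map (fun G => ∏ q ∈ G, q)) hQs hpw
  rw [← hUprod, List.length_map, hLlen] at hgood
  have hUpos : 0 < ∏ q ∈ U, q := Finset.prod_pos fun q hq => (hUprime q hq).pos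
  refine ⟨∏ q ∈ U, q, hgood, ?_, ?_⟩
  · have h1 : (2 ^ (8 * (ρ + 1))) ^ U.card ≤ ∏ q ∈ U, q :=
      Finset.pow_card_le_prod U _ _ fun q hq => (mem_pool (hUpool hq)).2.1.le
    refine le_trans ?_ h1
    rw [hUc, ← pow_mul]
    exact Nat.pow_le_pow_right (by norm_num) (stage_gain ρ s hρ hs7 hsρ)
  · rw [Nat.primeFactors_mul hUpos.ne' hNpos.ne', Nat.primeFactors_prod hUprime]
    refine le_trans (Finset.card_union_le _ _) ?_
    rw [hUc]
    have := gS_tS_le ρ s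
    omega

end Vale.Agent.Lib.P012
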