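import Vale.Agent.Lib.P012.Stage

namespace Vale.Agent.Lib.P012

open Finset

/-- the fixed pool of `2 ^ (ρ + 1) + 4` small primes, split into `W`, `PA`, `PB` -/
def IsPool (ρ : ℕ) (S W PA PB : Finset ℕ) : Prop :=
  (∀ p ∈ S, p.Prime) ∧ (∀ p ∈ S, p ≤ 2 ^ (16 * ρ)) ∧ S.card = 2 ^ (ρ + 1) + 4 ∧
  W ⊆ S ∧ W.card = 4 ∧ PA ⊆ S ∧ PB ⊆ S ∧ PA.card = 2 ^ ρ ∧ PB.card = 2 ^ ρ ∧
  Disjoint W PA ∧ Disjoint W PB ∧ Disjoint PA PB

theorem exists_pool (ρ : ℕ) (hρ : 16 ≤ ρ) : ∃ S W PA PB : Finset ℕ, IsPool ρ S W PA PB := by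
  classical
  have h1 := primes_count (16 * ρ)
  have h2 : 2 ^ (ρ + 1) + 4 ≤ (Nat.primesLE (2 ^ (16 * ρ))).card := by
    by_contra hcon
    push Not at hcon
    have e0 : (4 : ℕ) ≤ 2 ^ (ρ + 1) := by
      calc (4 : ℕ) = 2 ^ 2 := by norm_num
        _ ≤ 2 ^ (ρ + 1) := Nat.pow_le_pow_right (by norm_num) (by omega)
    have e1 : (Nat.primesLE (2 ^ (16 * ρ))).card + 1 ≤ 2 ^ (ρ + 2) := by
      rw [pow_succ]; omega
    have e7 : 16 * ρ ≤ 2 ^ (ρ + 5) := by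
      have : ρ + 1 ≤ 2 ^ (ρ + 1) := Nat.lt_two_pow_self.le
      calc 16 * ρ ≤ 2 ^ 4 * 2 ^ (ρ + 1) := by omega
        _ = 2 ^ (ρ + 5) := by rw [← pow_add]; exact congrArg (fun k => 2 ^ k) (by omega)
    have e8 : 16 * ρ * ((Nat.primesLE (2 ^ (16 * ρ))).card + 1) ≤ 2 ^ (ρ + 5) * 2 ^ (ρ + 2) :=
      Nat.mul_le_mul e7 e1
    have e9 : 2 ^ (ρ + 5) * 2 ^ (ρ + 2) = 2 ^ (2 * ρ + 7) := by
      rw [← pow_add]; exact congrArg (fun k => 2 ^ k) (by omega)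
    have e10 : 2 ^ (2 * ρ + 7 + 1) ≤ 2 ^ (16 * ρ) :=
      Nat.pow_le_pow_right (by norm_num) (by omega)
    have e11 : 2 ^ 1 ≤ 2 ^ (2 * ρ + 7) := Nat.pow_le_pow_right (by norm_num) (by omega)
    rw [pow_succ] at e10
    have e12 : 16 * ρ * ((Nat.primesLE (2 ^ (16 * ρ))).card + 1)
        = 16 * ρ * (Nat.primesLE (2 ^ (16 * ρ))).card + 16 * ρ := by ring
    omega
  obtain ⟨S, hSsub, hSc⟩ := Finset.exists_subset_card_eq h2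
  have hpow : 2 ^ (ρ + 1) = 2 ^ ρ + 2 ^ ρ := by rw [pow_succ]; ring
  obtain ⟨W, hWS, hWc⟩ := Finset.exists_subset_card_eq (s := S) (n := 4) (by
    rw [hSc]; exact Nat.le_add_left _ _)
  obtain ⟨PA, hPAS, hPAc⟩ := Finset.exists_subset_card_eq (s := S \ W) (n := 2 ^ ρ) (by
    rw [Finset.card_sdiff_of_subset hWS, hSc, hWc, hpow]
    generalize 2 ^ ρ = P
    omega)
  obtain ⟨PB, hPBS, hPBc⟩ := Finset.exists_subset_card_eq (s := (S \ W) \ PA) (n := 2 ^ ρ) (by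
    rw [Finset.card_sdiff_of_subset hPAS, Finset.card_sdiff_of_subset hWS, hSc, hWc, hPAc, hpow]
    generalize 2 ^ ρ = P
    omega)
  refine ⟨S, W, PA, PB, fun p hp => (Nat.mem_primesLE.mp (hSsub hp)).2,
    fun p hp => (Nat.mem_primesLE.mp (hSsub hp)).1, hSc, hWS, hWc,
    hPAS.trans Finset.sdiff_subset, (hPBS.trans Finset.sdiff_subset).trans Finset.sdiff_subset,
    hPAc, hPBc, ?_, ?_, ?_⟩
  · rw [Finset.disjoint_left]
    intro x hxW hxA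
    exact (Finset.mem_sdiff.mp (hPAS hxA)).2 hxW
  · rw [Finset.disjoint_left]
    intro x hxW hxB
    exact (Finset.mem_sdiff.mp (Finset.mem_sdiff.mp (hPBS hxB)).1).2 hxW
  · rw [Finset.disjoint_left]
    intro x hxA hxB
    exact (Finset.mem_sdiff.mp (hPBS hxB)).2 hxA

theorem lin_le_pow' (ρ : ℕ) (hρ : 16 ≤ ρ) : 256 * (ρ + 1) ≤ 2 ^ ρ := by
  have := lin_le_pow ρ hρ
  have h' : 2 ^ ρ = 4 * 2 ^ (ρ - 2) := by
    have : ρ = (ρ - 2) + 2 := by omega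
    nth_rewrite 1 [this]
    rw [pow_add]; ring
  omega

/-- one round at stage `s`, keeping the shape `N = X * Π` -/
theorem stage_round (ρ s : ℕ) (hρ : 16 ≤ ρ) (hs7 : 7 ≤ s) (hsρ : s < ρ)
    (S W PA PB : Finset ℕ) (hpool : IsPool ρ S W PA PB)
    (X N F E : ℕ) (h : GoodBelow X N F) (hN : N = X * ∏ p ∈ S, p) (hXE : 2 ^ E ≤ X)
    (hE : EE ρ s ≤ E) (hpf : N.primeFactors.card ≤ 2 ^ (2 * ρ + 3)) :
    ∃ X' N' : ℕ, GoodBelow X' N' (F + 4 * gS ρ s) ∧ N' = X' * ∏ p ∈ S, p ∧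
      2 ^ (E + 16 * ρ * 2 ^ (s + 1)) ≤ X' ∧
      N'.primeFactors.card ≤ N.primeFactors.card + (96 * ρ + 99) * 2 ^ s := by
  obtain ⟨hSp, hSle, hSc, hWS, hWc, hPA, hPB, hPAc, hPBc, hWA, hWB, hAB⟩ := hpool
  have hSpos : 0 < ∏ p ∈ S, p := Finset.prod_pos fun p hp => (hSp p hp).pos
  have hXpos : 0 < X := lt_of_lt_of_le (by positivity) hXE
  have hNpos : 0 < N := by rw [hN]; exact Nat.mul_pos hXpos hSpos
  have hX : 2 ^ EE ρ s ≤ X := le_trans (Nat.pow_le_pow_right (by norm_num) hE) hXE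
  obtain ⟨Q, hg, hQ, hc⟩ := stage_step ρ s hρ hs7 hsρ S W PA PB hSp hSle hWS hWc hPA hPB hPAc hPBc
    hWA hWB hAB X N F h (by rw [hN]; exact dvd_mul_left _ _) hNpos hX hpf
  refine ⟨Q * X, Q * N, hg, by rw [hN, mul_assoc], ?_, hc⟩
  rw [pow_add, mul_comm]
  exact Nat.mul_le_mul hQ hXE

theorem count_ok (ρ s k : ℕ) (hρ : 16 ≤ ρ) (hsρ : s ≤ ρ) (hk : k ≤ 4) :
    2 ^ (ρ + 2) + (96 * ρ + 99) * (k * 2 ^ s) ≤ 2 ^ (2 * ρ + 3) := by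
  have h9 := lin_le_pow' ρ hρ
  have hs2 : (2 : ℕ) ^ s ≤ 2 ^ ρ := Nat.pow_le_pow_right (by norm_num) hsρ
  have h1 : (96 * ρ + 99) * (k * 2 ^ s) ≤ 2 ^ ρ * (4 * 2 ^ ρ) :=
    Nat.mul_le_mul (by omega) (Nat.mul_le_mul hk hs2)
  have h2 : 2 ^ ρ * (4 * 2 ^ ρ) = 2 ^ (2 * ρ + 2) := by
    rw [show 2 * ρ + 2 = ρ + (2 + ρ) by ring, pow_add, pow_add]; norm_num
  have h3 : (2 : ℕ) ^ (ρ + 2) ≤ 2 ^ (2 * ρ + 2) := Nat.pow_le_pow_right (by norm_num) (by omega)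
  have h4 : (2 : ℕ) ^ (2 * ρ + 3) = 2 * 2 ^ (2 * ρ + 2) := by rw [pow_succ]; ring
  omega

theorem stage_iter (ρ : ℕ) (hρ : 16 ≤ ρ) (S W PA PB : Finset ℕ) (hpool : IsPool ρ S W PA PB) :
    ∀ j : ℕ, 7 + j ≤ ρ → ∃ X N F : ℕ, GoodBelow X N F ∧ N = X * ∏ p ∈ S, p ∧
      2 ^ EE ρ (7 + j) ≤ X ∧
      N.primeFactors.card ≤ 2 ^ (ρ + 2) + (96 * ρ + 99) * 2 ^ (7 + j) ∧
      F ≤ EE ρ 7 + 4 * ∑ i ∈ range j, gS ρ (7 + i) := by
  classical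
  have hSp := hpool.1
  have hSc := hpool.2.2.1
  have hSpos : 0 < ∏ p ∈ S, p := Finset.prod_pos fun p hp => (hSp p hp).pos
  intro j
  induction j with
  | zero =>
    intro _
    refine ⟨2 ^ EE ρ 7, 2 ^ EE ρ 7 * ∏ p ∈ S, p, EE ρ 7, good_below_two_pow _ _, rfl, le_rfl,
      ?_, by simp⟩
    have hE : EE ρ 7 ≠ 0 := by unfold EE; omega
    rw [Nat.primeFactors_mul (by positivity) hSpos.ne', Nat.primeFactors_prime_pow hE Nat.prime_two,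
      Nat.primeFactors_prod hSp]
    refine le_trans (Finset.card_union_le _ _) ?_
    rw [Finset.card_singleton, hSc]
    have h1 : 2 ^ (ρ + 2) = 2 ^ (ρ + 1) + 2 ^ (ρ + 1) := by rw [pow_succ]; ring
    have h2 : (4 : ℕ) ≤ 2 ^ (ρ + 1) := by
      calc (4 : ℕ) = 2 ^ 2 := by norm_num
        _ ≤ 2 ^ (ρ + 1) := Nat.pow_le_pow_right (by norm_num) (by omega)
    have h3 : 0 < (96 * ρ + 99) * 2 ^ (7 + 0) := by positivity
    omega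
  | succ j ih =>
    intro hj
    obtain ⟨X, N, F, hg, hN, hX, hc, hF⟩ := ih (by omega)
    have hpf : N.primeFactors.card ≤ 2 ^ (2 * ρ + 3) := by
      have := count_ok ρ (7 + j) 1 hρ (by omega) (by omega)
      rw [one_mul] at this
      omega
    obtain ⟨X', N', hg', hN', hX', hc'⟩ := stage_round ρ (7 + j) hρ (by omega) (by omega)
      S W PA PB hpool X N F (EE ρ (7 + j)) hg hN hX le_rfl hpf
    refine ⟨X', N', F + 4 * gS ρ (7 + j), hg', hN', ?_, ?_, ?_⟩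
    · have : 7 + (j + 1) = (7 + j) + 1 := by ring
      rw [this, EE_succ]
      exact hX'
    · have : 2 ^ (7 + (j + 1)) = 2 ^ (7 + j) + 2 ^ (7 + j) := by
        rw [show 7 + (j + 1) = (7 + j) + 1 by ring, pow_succ]; ring
      rw [this, mul_add]
      omega
    · rw [Finset.sum_range_succ]
      omega

theorem F_bound (ρ L F0 g G : ℕ) (hρ : 16 ≤ ρ) (hF0 : F0 ≤ 4112 * ρ + 2 + 4 * G)
    (hsum : G ≤ 2 * (48 * ρ + 49) * (L + 1) + ρ) (hg : g ≤ 96 * ρ + 99) :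
    F0 + 4 * g + 4 * g + 4 * g ≤ 6000 * ρ * (L + 1) := by
  have h1 : 48 * ρ + 49 ≤ 52 * ρ := by omega
  have h2 : 2 * (48 * ρ + 49) * (L + 1) ≤ 2 * (52 * ρ) * (L + 1) :=
    Nat.mul_le_mul_right _ (by omega)
  have h3 : ρ ≤ ρ * (L + 1) := Nat.le_mul_of_pos_right _ (by omega)
  have h4 : 6000 * ρ * (L + 1) = 6000 * (ρ * (L + 1)) := by ring
  have h5 : 2 * (52 * ρ) * (L + 1) = 104 * (ρ * (L + 1)) := by ring
  omega

theorem stage_final : ∃ C0 : ℕ, ∀ ρ : ℕ, 16 ≤ ρ → ∃ N X F Z : ℕ,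
    GoodBelow X N F ∧ 0 < N ∧ N ≤ Z * X ∧ 2 ^ (2 ^ ρ) * Z ^ 2 ≤ X ∧ Z ≤ 2 ^ (2 ^ (2 * ρ)) ∧
      2 ≤ Z ∧ F ≤ C0 * ρ * (Nat.log 2 ρ + 1) := by
  classical
  refine ⟨6000, ?_⟩
  intro ρ hρ
  obtain ⟨S, W, PA, PB, hpool⟩ := exists_pool ρ hρ
  have hSp := hpool.1
  have hSle := hpool.2.1
  have hSc := hpool.2.2.1
  have hSpos : 0 < ∏ p ∈ S, p := Finset.prod_pos fun p hp => (hSp p hp).pos
  obtain ⟨X0, N0, F0, hg0, hN0, hX0, hc0, hF0⟩ := stage_iter ρ hρ S W PA PB hpool (ρ - 7) (by omega)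
  have e7 : 7 + (ρ - 7) = ρ := by omega
  rw [e7] at hX0 hc0
  have hEE : EE ρ (ρ - 1) ≤ EE ρ ρ := by
    unfold EE
    have : (2 : ℕ) ^ (ρ - 1 + 1) ≤ 2 ^ (ρ + 1) := Nat.pow_le_pow_right (by norm_num) (by omega)
    have := Nat.mul_le_mul_left (16 * ρ) (Nat.add_le_add_right this 1)
    omega
  have hpw : 2 ^ ρ = 2 ^ (ρ - 1) + 2 ^ (ρ - 1) := by
    have : ρ = (ρ - 1) + 1 := by omega
    nth_rewrite 1 [this]
    rw [pow_succ]; ring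
  have hss : ρ - 1 + 1 = ρ := by omega
  -- three extra rounds at the last stage
  have hpf0 : N0.primeFactors.card ≤ 2 ^ (2 * ρ + 3) := by
    have := count_ok ρ ρ 1 hρ le_rfl (by omega)
    rw [one_mul] at this
    omega
  obtain ⟨X1, N1, hg1, hN1, hX1, hc1⟩ := stage_round ρ (ρ - 1) hρ (by omega) (by omega)
    S W PA PB hpool X0 N0 F0 (EE ρ ρ) hg0 hN0 hX0 hEE hpf0
  have hpf1 : N1.primeFactors.card ≤ 2 ^ (2 * ρ + 3) := by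
    have := count_ok ρ (ρ - 1) 3 hρ (by omega) (by omega)
    have e : (96 * ρ + 99) * (3 * 2 ^ (ρ - 1))
        = (96 * ρ + 99) * 2 ^ ρ + (96 * ρ + 99) * 2 ^ (ρ - 1) := by rw [hpw]; ring
    omega
  obtain ⟨X2, N2, hg2, hN2, hX2, hc2⟩ := stage_round ρ (ρ - 1) hρ (by omega) (by omega)
    S W PA PB hpool X1 N1 _ _ hg1 hN1 hX1 (by omega) hpf1
  have hpf2 : N2.primeFactors.card ≤ 2 ^ (2 * ρ + 3) := by
    have := count_ok ρ (ρ - 1) 4 hρ (by omega) (by omega)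
    have e : (96 * ρ + 99) * (4 * 2 ^ (ρ - 1))
        = (96 * ρ + 99) * 2 ^ ρ + 2 * ((96 * ρ + 99) * 2 ^ (ρ - 1)) := by rw [hpw]; ring
    omega
  obtain ⟨X3, N3, hg3, hN3, hX3, hc3⟩ := stage_round ρ (ρ - 1) hρ (by omega) (by omega)
    S W PA PB hpool X2 N2 _ _ hg2 hN2 hX2 (by omega) hpf2
  rw [hss] at hX1 hX2 hX3
  have hX3pos : 0 < X3 := lt_of_lt_of_le (by positivity) hX3
  have hZ : ∏ p ∈ S, p ≤ 2 ^ (16 * ρ * (2 ^ (ρ + 1) + 4)) := by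
    have := Finset.prod_le_pow_card S (fun p => p) (2 ^ (16 * ρ)) hSle
    rw [hSc, ← pow_mul] at this
    exact this
  have h256 := lin_le_pow' ρ hρ
  refine ⟨N3, X3, _, 2 ^ (16 * ρ * (2 ^ (ρ + 1) + 4)), hg3, ?_, ?_, ?_, ?_, ?_, ?_⟩
  · rw [hN3]; exact Nat.mul_pos hX3pos hSpos
  · rw [hN3, mul_comm]
    exact Nat.mul_le_mul_right _ hZ
  · refine le_trans ?_ hX3
    rw [← pow_mul, ← pow_add]
    apply Nat.pow_le_pow_right (by norm_num)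
    unfold EE
    have h1 : 2 ^ (ρ + 1) = 2 * 2 ^ ρ := by rw [pow_succ]; ring
    rw [h1]
    generalize 2 ^ ρ = P at h256 ⊢
    have h2 : P + 112 * ρ ≤ 16 * ρ * P := by nlinarith
    have e1 : 16 * ρ * (2 * P + 4) * 2 = 64 * (ρ * P) + 128 * ρ := by ring
    have e2 : 16 * ρ * (2 * P + 1) + 2 + 16 * ρ * P + 16 * ρ * P + 16 * ρ * P
        = 80 * (ρ * P) + 16 * ρ + 2 := by ring
    have e3 : 16 * ρ * P = 16 * (ρ * P) := by ring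
    rw [e1, e2]
    rw [e3] at h2
    omega
  · apply Nat.pow_le_pow_right (by norm_num)
    have h1 : 2 ^ (ρ + 1) = 2 * 2 ^ ρ := by rw [pow_succ]; ring
    have h2 : 2 ^ (2 * ρ) = 2 ^ ρ * 2 ^ ρ := by
      rw [← pow_add]; exact congrArg (fun k => 2 ^ k) (by omega)
    rw [h1, h2]
    generalize 2 ^ ρ = P at h256 ⊢
    have h3 : 256 * (ρ + 1) * P ≤ P * P := Nat.mul_le_mul_right P h256
    have e1 : 16 * ρ * (2 * P + 4) = 32 * (ρ * P) + 64 * ρ := by ring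
    have e2 : 256 * (ρ + 1) * P = 256 * (ρ * P) + 256 * P := by ring
    rw [e1]
    rw [e2] at h3
    omega
  · calc 2 = 2 ^ 1 := by norm_num
      _ ≤ 2 ^ (16 * ρ * (2 ^ (ρ + 1) + 4)) := Nat.pow_le_pow_right (by norm_num) (by
          have e : 16 * ρ * (2 ^ (ρ + 1) + 4) = 16 * (ρ * (2 ^ (ρ + 1) + 4)) := by ring
          rw [e]
          have : 16 ≤ ρ * (2 ^ (ρ + 1) + 4) :=
            le_trans hρ (Nat.le_mul_of_pos_right _ (by positivity))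
          omega)
  · have hE7 : EE ρ 7 = 4112 * ρ + 2 := by unfold EE; norm_num; ring
    rw [hE7] at hF0
    exact F_bound ρ (Nat.log 2 ρ) F0 (gS ρ (ρ - 1)) _ hρ hF0 (sum_gS_le ρ hρ) (gS_le ρ (ρ - 1))

end Vale.Agent.Lib.P012
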